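import Mathlib

/-!
# Smooth dependence of local flows on initial conditions (finite dimension)
-/

open Set Filter Topology Metric
open scoped ContDiff unitInterval

noncomputable section

set_option linter.unusedSectionVars false
set_option linter.unusedVariables false

namespace Vale.Agent.P255

namespace Ode

section Superposition

variable {K : Type} [TopologicalSpace K] [CompactSpace K]
variable {F : Type} [NormedAddCommGroup F] [NormedSpace ℝ F]

/-- pointwise application of a continuous family of continuous linear maps -/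
def appL (K : Type) [TopologicalSpace K] [CompactSpace K]
    (F G : Type) [NormedAddCommGroup F] [NormedSpace ℝ F]
    [NormedAddCommGroup G] [NormedSpace ℝ G] :
    C(K, F →L[ℝ] G) →L[ℝ] C(K, F) →L[ℝ] C(K, G) :=
  LinearMap.mkContinuous₂
    (LinearMap.mk₂ ℝ (fun (A : C(K, F →L[ℝ] G)) (h : C(K, F)) =>
        (⟨fun s => A s (h s), by fun_prop⟩ : C(K, G)))
      (by intro A B h; ext s; simp) (by intro c A h; ext s; simp)
      (by intro A h k; ext s; simp) (by intro c A h; ext s; simp)) 1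
    (by
      intro A h
      rw [one_mul]
      refine (ContinuousMap.norm_le _ (by positivity)).2 fun s => ?_
      have h1 : ‖A s‖ ≤ ‖A‖ := A.norm_coe_le_norm s
      have h2 : ‖h s‖ ≤ ‖h‖ := h.norm_coe_le_norm s
      exact ((A s).le_opNorm (h s)).trans (by gcongr))

@[simp] lemma appL_apply {G : Type} [NormedAddCommGroup G] [NormedSpace ℝ G]
    (A : C(K, F →L[ℝ] G)) (h : C(K, F)) (s : K) : appL K F G A h s = A s (h s) := rfl

/-- superposition operator -/
def sup {G : Type} [NormedAddCommGroup G] [NormedSpace ℝ G] (f : C(F, G)) (α : C(K, F)) :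
    C(K, G) := f.comp α

lemma continuous_sup {G : Type} [NormedAddCommGroup G] [NormedSpace ℝ G] (f : C(F, G)) :
    Continuous (sup f : C(K, F) → C(K, G)) :=
  ContinuousMap.continuous_postcomp f

/-- the derivative of `f` as a continuous map -/
def dmap {G : Type} [NormedAddCommGroup G] [NormedSpace ℝ G] (f : F → G) (hf : ContDiff ℝ 1 f) :
    C(F, F →L[ℝ] G) := ⟨fderiv ℝ f, hf.continuous_fderiv (by norm_num)⟩

lemma hasFDerivAt_sup {G : Type} [NormedAddCommGroup G] [NormedSpace ℝ G] (f : F → G)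
    (hf : ContDiff ℝ 1 f) (α : C(K, F)) :
    HasFDerivAt (fun β : C(K, F) => sup ⟨f, hf.continuous⟩ β)
      (appL K F G (sup (dmap f hf) α)) α := by
  rw [hasFDerivAt_iff_isLittleO_nhds_zero, Asymptotics.isLittleO_iff]
  intro ε hε
  have hcont : Continuous (fderiv ℝ f) := hf.continuous_fderiv (by norm_num)
  have hdiff : Differentiable ℝ f := hf.differentiable (by norm_num)
  set S : Set (K × F) := {p | ‖fderiv ℝ f (α p.1 + p.2) - fderiv ℝ f (α p.1)‖ < ε} with hS
  have hSo : IsOpen S := by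
    refine isOpen_lt ?_ continuous_const
    fun_prop
  have hsub : (univ : Set K) ×ˢ ({0} : Set F) ⊆ S := by
    rintro ⟨s, h⟩ ⟨-, hh⟩
    simp only [mem_singleton_iff] at hh
    simp [hS, hh, hε]
  obtain ⟨u, v, hu, hv, hu', hv', huv⟩ :=
    generalized_tube_lemma isCompact_univ isCompact_singleton hSo hsub
  obtain ⟨δ, hδ, hball⟩ := Metric.isOpen_iff.1 hv 0 (hv' rfl)
  filter_upwards [Metric.ball_mem_nhds (0 : C(K, F)) hδ] with h hh
  rw [mem_ball_zero_iff] at hh
  refine (ContinuousMap.norm_le _ (by positivity)).2 fun s => ?_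
  have hhs : ‖h s‖ < δ := (h.norm_coe_le_norm s).trans_lt hh
  have key : ∀ y ∈ ball (α s) δ, ‖fderiv ℝ f y - fderiv ℝ f (α s)‖ ≤ ε := by
    intro y hy
    have hmem : ((s, y - α s) : K × F) ∈ S := by
      refine huv ⟨hu' (mem_univ s), hball ?_⟩
      rw [mem_ball_zero_iff]
      rwa [mem_ball_iff_norm] at hy
    have := hmem
    simp only [hS, mem_ofPred_eq, add_sub_cancel] at this
    exact this.le
  have h1 := (convex_ball (α s) δ).norm_image_sub_le_of_norm_hasFDerivWithin_le'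
    (f := f) (f' := fderiv ℝ f) (φ := fderiv ℝ f (α s)) (C := ε)
    (fun y _ => (hdiff y).hasFDerivAt.hasFDerivWithinAt) key
    (mem_ball_self hδ) (show α s + h s ∈ ball (α s) δ by simpa using hhs)
  rw [add_sub_cancel_left] at h1
  have h2 : ‖h s‖ ≤ ‖h‖ := h.norm_coe_le_norm s
  calc ‖(sup ⟨f, hf.continuous⟩ (α + h) - sup ⟨f, hf.continuous⟩ α
        - (appL K F G (sup (dmap f hf) α)) h) s‖
      = ‖f (α s + h s) - f (α s) - fderiv ℝ f (α s) (h s)‖ := rfl
    _ ≤ ε * ‖h s‖ := h1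
    _ ≤ ε * ‖h‖ := by gcongr

lemma contDiff_sup_nat (n : ℕ) : ∀ (G : Type) [NormedAddCommGroup G] [NormedSpace ℝ G]
    (f : F → G) (hc : Continuous f) (hf : ContDiff ℝ n f), ContDiff ℝ n
      (fun β : C(K, F) => sup ⟨f, hc⟩ β) := by
  induction n with
  | zero =>
    intro G _ _ f hc hf
    exact contDiff_zero.2 (continuous_sup _)
  | succ n ih =>
    intro G _ _ f hc hf
    have hf1 : ContDiff ℝ 1 f := hf.of_le (by exact_mod_cast Nat.succ_le_succ (Nat.zero_le n))
    have hd := hasFDerivAt_sup (K := K) f hf1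
    rw [show ((n + 1 : ℕ) : WithTop ℕ∞) = (n : WithTop ℕ∞) + 1 by norm_cast] at hf ⊢
    rw [contDiff_succ_iff_fderiv] at hf ⊢
    refine ⟨fun α => (hd α).differentiableAt, by simp, ?_⟩
    have hEq : fderiv ℝ (fun β : C(K, F) => sup ⟨f, hf1.continuous⟩ β)
        = fun α => appL K F G (sup (dmap f hf1) α) := by
      funext α
      exact (hd α).fderiv
    have h2 : ContDiff ℝ n (fun α : C(K, F) => sup (dmap f hf1) α) :=
      ih _ (fderiv ℝ f) (hf1.continuous_fderiv (by norm_num)) hf.2.2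
    have h3 : ContDiff ℝ n (fun α : C(K, F) => appL K F G (sup (dmap f hf1) α)) :=
      h2.continuousLinearMap_comp (appL K F G)
    rw [← hEq] at h3
    exact h3

lemma contDiff_sup {G : Type} [NormedAddCommGroup G] [NormedSpace ℝ G]
    (f : F → G) (hf : ContDiff ℝ ∞ f) : ContDiff ℝ ∞
      (fun β : C(K, F) => sup ⟨f, hf.continuous⟩ β) := by
  rw [contDiff_infty]
  intro n
  exact contDiff_sup_nat n G f hf.continuous (hf.of_le (by exact_mod_cast le_top))

end Superposition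

section Integral

variable {F : Type} [NormedAddCommGroup F] [NormedSpace ℝ F]

/-- the interval `[-1,1]` -/
abbrev KI : Type := Icc (-1 : ℝ) 1

/-- the extension of a curve to the real line -/
def ext (α : C(KI, F)) (u : ℝ) : F := α (projIcc (-1) 1 (by norm_num) u)

lemma continuous_ext (α : C(KI, F)) : Continuous (ext α) :=
  α.continuous.comp continuous_projIcc

lemma ext_of_mem (α : C(KI, F)) {u : ℝ} (hu : u ∈ Icc (-1 : ℝ) 1) : ext α u = α ⟨u, hu⟩ := by
  unfold ext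
  rw [projIcc_of_mem _ hu]

lemma norm_ext_le (α : C(KI, F)) (u : ℝ) : ‖ext α u‖ ≤ ‖α‖ := α.norm_coe_le_norm _

/-- integration of curves from `0` -/
def J (F : Type) [NormedAddCommGroup F] [NormedSpace ℝ F] : C(KI, F) →L[ℝ] C(KI, F) :=
  LinearMap.mkContinuous
    { toFun := fun α => ⟨fun s => ∫ u in (0 : ℝ)..s, ext α u, by
        have h : Continuous (fun s : ℝ => ∫ u in (0 : ℝ)..s, ext α u) :=
          intervalIntegral.continuous_primitive
            (fun a b => (continuous_ext α).intervalIntegrable a b) 0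
        exact h.comp continuous_subtype_val⟩
      map_add' := by
        intro α β
        ext s
        simp only [ContinuousMap.coe_mk, ContinuousMap.add_apply]
        rw [← intervalIntegral.integral_add ((continuous_ext α).intervalIntegrable _ _)
          ((continuous_ext β).intervalIntegrable _ _)]
        rfl
      map_smul' := by
        intro c α
        ext s
        simp only [ContinuousMap.coe_mk, ContinuousMap.smul_apply, RingHom.id_apply]
        rw [← intervalIntegral.integral_smul]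
        rfl } 1
    (by
      intro α
      rw [one_mul]
      refine (ContinuousMap.norm_le _ (by positivity)).2 fun s => ?_
      have h := intervalIntegral.norm_integral_le_of_norm_le_const (a := (0 : ℝ)) (b := (s : ℝ))
        (f := ext α) (C := ‖α‖) (fun u _ => norm_ext_le α u)
      have hs : |(s : ℝ) - 0| ≤ 1 := by
        rw [sub_zero, abs_le]
        exact s.2
      calc ‖∫ u in (0 : ℝ)..s, ext α u‖ ≤ ‖α‖ * |(s : ℝ) - 0| := h
        _ ≤ ‖α‖ * 1 := by gcongr
        _ = ‖α‖ := mul_one _)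

lemma J_apply (α : C(KI, F)) (s : KI) : J F α s = ∫ u in (0 : ℝ)..s, ext α u := rfl

/-- constant curves -/
def cst (F : Type) [NormedAddCommGroup F] [NormedSpace ℝ F] : F →L[ℝ] C(KI, F) :=
  LinearMap.mkContinuous
    { toFun := fun x => ContinuousMap.const _ x
      map_add' := by intro x y; ext s; simp
      map_smul' := by intro c x; ext s; simp } 1
    (by
      intro x
      rw [one_mul]
      exact (ContinuousMap.norm_le _ (by positivity)).2 fun s => le_rfl)

@[simp] lemma cst_apply (x : F) (s : KI) : cst F x s = x := rfl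

end Integral

section Core

variable {F : Type} [NormedAddCommGroup F] [NormedSpace ℝ F]

/-- the map whose zeros are the solutions of `α' = τ g(α)`, `α 0 = x` -/
def Hm (g : F → F) (hc : Continuous g) (q : (ℝ × F) × C(KI, F)) : C(KI, F) :=
  q.2 - cst F q.1.2 - q.1.1 • J F (sup ⟨g, hc⟩ q.2)

def Psi (g : F → F) (hc : Continuous g) (q : (ℝ × F) × C(KI, F)) : (ℝ × F) × C(KI, F) :=
  (q.1, Hm g hc q)

lemma contDiff_Hm (g : F → F) (hg : ContDiff ℝ ∞ g) :
    ContDiff ℝ ∞ (Hm g hg.continuous) := by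
  unfold Hm
  have h1 : ContDiff ℝ ∞ (fun q : (ℝ × F) × C(KI, F) => sup ⟨g, hg.continuous⟩ q.2) :=
    (contDiff_sup g hg).comp contDiff_snd
  have h2 := h1.continuousLinearMap_comp (J F)
  have h3 : ContDiff ℝ ∞ (fun q : (ℝ × F) × C(KI, F) => cst F q.1.2) :=
    (contDiff_snd.comp contDiff_fst).continuousLinearMap_comp (cst F)
  exact (contDiff_snd.sub h3).sub ((contDiff_fst.comp contDiff_fst).smul h2)

lemma contDiff_Psi (g : F → F) (hg : ContDiff ℝ ∞ g) :
    ContDiff ℝ ∞ (Psi g hg.continuous) :=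
  contDiff_fst.prodMk (contDiff_Hm g hg)

/-- shear equivalence -/
def shear {X Y : Type} [NormedAddCommGroup X] [NormedSpace ℝ X] [NormedAddCommGroup Y]
    [NormedSpace ℝ Y] (B : X →L[ℝ] Y) : (X × Y) ≃L[ℝ] (X × Y) :=
  ContinuousLinearEquiv.equivOfInverse
    ((ContinuousLinearMap.fst ℝ X Y).prod
      (ContinuousLinearMap.snd ℝ X Y - B.comp (ContinuousLinearMap.fst ℝ X Y)))
    ((ContinuousLinearMap.fst ℝ X Y).prod
      (ContinuousLinearMap.snd ℝ X Y + B.comp (ContinuousLinearMap.fst ℝ X Y)))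
    (by rintro ⟨x, y⟩; simp) (by rintro ⟨x, y⟩; simp)

lemma hasFDerivAt_Psi (g : F → F) (hg : ContDiff ℝ ∞ g) (x₀ : F) :
    ∃ B : (ℝ × F) →L[ℝ] C(KI, F), HasFDerivAt (Psi g hg.continuous)
      ((shear B : ((ℝ × F) × C(KI, F)) ≃L[ℝ] ((ℝ × F) × C(KI, F))) :
        ((ℝ × F) × C(KI, F)) →L[ℝ] ((ℝ × F) × C(KI, F))) ((0, x₀), cst F x₀) := by
  set Nm : (ℝ × F) × C(KI, F) → C(KI, F) := fun q => J F (sup ⟨g, hg.continuous⟩ q.2) with hNm
  have hN : ContDiff ℝ ∞ Nm := by
    have h1 : ContDiff ℝ ∞ (fun q : (ℝ × F) × C(KI, F) => sup ⟨g, hg.continuous⟩ q.2) :=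
      (contDiff_sup g hg).comp contDiff_snd
    exact h1.continuousLinearMap_comp (J F)
  have hN' : HasFDerivAt Nm (fderiv ℝ Nm ((0, x₀), cst F x₀)) ((0, x₀), cst F x₀) :=
    ((hN.differentiable (by simp)) _).hasFDerivAt
  set q₀ : (ℝ × F) × C(KI, F) := ((0, x₀), cst F x₀) with hq₀
  refine ⟨(cst F).comp (ContinuousLinearMap.snd ℝ ℝ F) +
    (ContinuousLinearMap.fst ℝ ℝ F).smulRight (Nm q₀), ?_⟩
  have e1 : HasFDerivAt (fun q : (ℝ × F) × C(KI, F) => q.1)
      (ContinuousLinearMap.fst ℝ (ℝ × F) C(KI, F)) q₀ := hasFDerivAt_fst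
  have e2 : HasFDerivAt (fun q : (ℝ × F) × C(KI, F) => q.2)
      (ContinuousLinearMap.snd ℝ (ℝ × F) C(KI, F)) q₀ := hasFDerivAt_snd
  have e3 : HasFDerivAt (fun q : (ℝ × F) × C(KI, F) => q.1.1)
      ((ContinuousLinearMap.fst ℝ ℝ F).comp (ContinuousLinearMap.fst ℝ (ℝ × F) C(KI, F))) q₀ :=
    ((ContinuousLinearMap.fst ℝ ℝ F).comp
      (ContinuousLinearMap.fst ℝ (ℝ × F) C(KI, F))).hasFDerivAt
  have e4 : HasFDerivAt (fun q : (ℝ × F) × C(KI, F) => cst F q.1.2)
      ((cst F).comp ((ContinuousLinearMap.snd ℝ ℝ F).comp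
        (ContinuousLinearMap.fst ℝ (ℝ × F) C(KI, F)))) q₀ :=
    ((cst F).comp ((ContinuousLinearMap.snd ℝ ℝ F).comp
        (ContinuousLinearMap.fst ℝ (ℝ × F) C(KI, F)))).hasFDerivAt
  have e5 := e3.smul hN'
  have e6 := e1.prodMk ((e2.sub e4).sub e5)
  refine HasFDerivAt.congr_fderiv e6 ?_
  refine ContinuousLinearMap.ext fun v => ?_
  rcases v with ⟨⟨a, y⟩, α⟩
  simp [shear, hq₀, sub_sub]

variable [CompleteSpace F]

/-- Local solution operator obtained from the implicit function theorem. -/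
lemma exists_sol (g : F → F) (hg : ContDiff ℝ ∞ g) (x₀ : F) (r : ℝ) (hr : 0 < r) :
    ∃ ε > 0, ∃ A : ℝ × F → C(KI, F),
      ContDiffOn ℝ ∞ A (ball ((0 : ℝ), x₀) ε) ∧
      (∀ p ∈ ball ((0 : ℝ), x₀) ε, Hm g hg.continuous (p, A p) = 0 ∧ ‖A p - cst F x₀‖ < r) ∧
      (∀ p ∈ ball ((0 : ℝ), x₀) ε, ∀ q ∈ ball ((0 : ℝ), x₀) ε, ∀ β : C(KI, F),
        ‖β - cst F x₀‖ ≤ ‖A q - cst F x₀‖ → Hm g hg.continuous (p, β) = 0 → β = A p) := by
  obtain ⟨B, hB⟩ := hasFDerivAt_Psi g hg x₀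
  set Ψ := Psi g hg.continuous with hΨ
  set q₀ : (ℝ × F) × C(KI, F) := ((0, x₀), cst F x₀) with hq₀
  have hsm : ContDiff ℝ ∞ Ψ := contDiff_Psi g hg
  have hstrict : HasStrictFDerivAt Ψ
      ((shear B : ((ℝ × F) × C(KI, F)) ≃L[ℝ] ((ℝ × F) × C(KI, F))) :
        ((ℝ × F) × C(KI, F)) →L[ℝ] ((ℝ × F) × C(KI, F))) q₀ :=
    (hsm.contDiffAt).hasStrictFDerivAt' hB (by simp)
  set e0 := hstrict.toOpenPartialHomeomorph Ψ with he0
  have hq₀s : q₀ ∈ e0.source := hstrict.mem_toOpenPartialHomeomorph_source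
  -- open set on which the derivative is invertible
  have hinv : ∀ᶠ q in 𝓝 q₀, fderiv ℝ Ψ q ∈
      range ((↑) : (((ℝ × F) × C(KI, F)) ≃L[ℝ] ((ℝ × F) × C(KI, F))) →
        (((ℝ × F) × C(KI, F)) →L[ℝ] ((ℝ × F) × C(KI, F)))) := by
    have hc : Continuous (fderiv ℝ Ψ) := hsm.continuous_fderiv (by simp)
    have hn := (shear B).nhds
    rw [← hB.fderiv] at hn
    exact hc.continuousAt hn
  obtain ⟨O, hOsub, hO, hq₀O⟩ := _root_.mem_nhds_iff.1 hinv
  set e := e0.restrOpen O hO with he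
  have heΨ : ∀ q, e q = Ψ q := fun q => rfl
  have hq₀e : q₀ ∈ e.source := by
    rw [he, OpenPartialHomeomorph.restrOpen_source]
    exact ⟨hq₀s, hq₀O⟩
  have hΨq₀ : Ψ q₀ = ((0, x₀), 0) := by
    simp [hΨ, Psi, Hm, hq₀]
  have hsymm : ∀ y ∈ e.target, ContDiffAt ℝ ∞ e.symm y := by
    intro y hy
    have hys : e.symm y ∈ e.source := e.map_target hy
    have hyO : e.symm y ∈ O := by
      rw [he, OpenPartialHomeomorph.restrOpen_source] at hys
      exact hys.2
    obtain ⟨L, hL⟩ := hOsub hyO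
    refine e.contDiffAt_symm hy (f₀' := L) ?_ (hsm.contDiffAt)
    rw [hL]
    exact ((hsm.differentiable (by simp)) _).hasFDerivAt
  have htarget : ((0, x₀), (0 : C(KI, F))) ∈ e.target := by
    rw [← hΨq₀]
    exact e.map_source hq₀e
  -- the solution operator
  set A : ℝ × F → C(KI, F) := fun p => (e.symm (p, 0)).2 with hA
  have hAcd : ∀ p : ℝ × F, (p, (0 : C(KI, F))) ∈ e.target → ContDiffAt ℝ ∞ A p := by
    intro p hp
    have h1 : ContDiffAt ℝ ∞ (fun p : ℝ × F => ((p, 0) : (ℝ × F) × C(KI, F))) p :=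
      (contDiff_id.prodMk contDiff_const).contDiffAt
    exact contDiffAt_snd.comp p ((hsymm _ hp).comp p h1)
  have hsolve : ∀ p : ℝ × F, (p, (0 : C(KI, F))) ∈ e.target →
      e.symm (p, 0) = (p, A p) ∧ Hm g hg.continuous (p, A p) = 0 := by
    intro p hp
    have h1 : Ψ (e.symm (p, 0)) = (p, 0) := e.right_inv hp
    have h2 : (e.symm (p, 0)).1 = p := congrArg Prod.fst h1
    have h3 : e.symm (p, 0) = (p, A p) := Prod.ext h2 rfl
    refine ⟨h3, ?_⟩
    rw [h3] at h1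
    exact congrArg Prod.snd h1
  have hA0 : A (0, x₀) = cst F x₀ := by
    have h1 : e.symm (Ψ q₀) = q₀ := e.left_inv hq₀e
    rw [hΨq₀] at h1
    simp only [hA, h1, hq₀]
  obtain ⟨ρ, hρ, hρsub⟩ := Metric.isOpen_iff.1 e.open_source q₀ hq₀e
  have hcontA : ContinuousAt A (0, x₀) := (hAcd _ htarget).continuousAt
  have hev1 : ∀ᶠ p in 𝓝 ((0 : ℝ), x₀), (p, (0 : C(KI, F))) ∈ e.target := by
    have hc : Continuous (fun p : ℝ × F => ((p, 0) : (ℝ × F) × C(KI, F))) := by fun_prop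
    exact hc.continuousAt.eventually (e.open_target.mem_nhds htarget)
  have hev2 : ∀ᶠ p in 𝓝 ((0 : ℝ), x₀), A p ∈ ball (cst F x₀) (min ρ r) := by
    refine hcontA.eventually ?_
    rw [hA0]
    exact ball_mem_nhds _ (lt_min hρ hr)
  have hev3 : ∀ᶠ p in 𝓝 ((0 : ℝ), x₀), p ∈ ball ((0 : ℝ), x₀) ρ := ball_mem_nhds _ hρ
  obtain ⟨ε, hε, hεsub⟩ := Metric.mem_nhds_iff.1 (hev1.and (hev2.and hev3))
  refine ⟨ε, hε, A, ?_, ?_, ?_⟩
  · intro p hp
    exact (hAcd p (hεsub hp).1).contDiffWithinAt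
  · intro p hp
    refine ⟨(hsolve p (hεsub hp).1).2, ?_⟩
    have := (hεsub hp).2.1
    rw [mem_ball_iff_norm] at this
    exact this.trans_le (min_le_right _ _)
  · intro p hp q hq β hβ hH
    have h1 : (p, β) ∈ e.source := by
      apply hρsub
      rw [mem_ball, Prod.dist_eq]
      refine max_lt ?_ ?_
      · exact (hεsub hp).2.2
      · rw [dist_eq_norm]
        have := (hεsub hq).2.1
        rw [mem_ball_iff_norm] at this
        exact (hβ.trans_lt this).trans_le (min_le_left _ _)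
    have h2 : Ψ (p, β) = (p, 0) := by
      simp only [hΨ, Psi, hH]
    have h3 : e.symm (p, 0) = (p, β) := by
      rw [← h2]
      exact e.left_inv h1
    simp only [hA, h3]

end Core

section Flow

variable {F : Type} [NormedAddCommGroup F] [NormedSpace ℝ F] [CompleteSpace F]

lemma ext_sup (g : F → F) (hc : Continuous g) (α : C(KI, F)) (u : ℝ) :
    ext (sup ⟨g, hc⟩ α) u = g (ext α u) := rfl

lemma Hm_eq_zero_iff (g : F → F) (hc : Continuous g) (p : ℝ × F) (α : C(KI, F)) :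
    Hm g hc (p, α) = 0 ↔ ∀ s : KI, α s = p.2 + p.1 • ∫ u in (0 : ℝ)..s, g (ext α u) := by
  unfold Hm
  constructor
  · intro h s
    have := DFunLike.congr_fun h s
    simp only [ContinuousMap.sub_apply, ContinuousMap.smul_apply, cst_apply, J_apply, ext_sup,
      ContinuousMap.zero_apply] at this
    rw [sub_sub, sub_eq_zero] at this
    exact this
  · intro h
    refine ContinuousMap.ext fun s => ?_
    simp only [ContinuousMap.sub_apply, ContinuousMap.smul_apply, cst_apply, J_apply, ext_sup,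
      ContinuousMap.zero_apply]
    rw [h s]
    abel

/-- Local flow of a globally smooth vector field, with smooth dependence on everything. -/
theorem exists_flow_global (g : F → F) (hg : ContDiff ℝ ∞ g) (x₀ : F) (r : ℝ) (hr : 0 < r) :
    ∃ ε > 0, ∃ Φ : ℝ → F → F,
      (∀ x ∈ ball x₀ ε, Φ 0 x = x) ∧
      (∀ x ∈ ball x₀ ε, ∀ t ∈ Ioo (-ε) ε, Φ t x ∈ ball x₀ r ∧
        HasDerivAt (fun s => Φ s x) (g (Φ t x)) t) ∧
      ContDiffOn ℝ ∞ (fun p : ℝ × F => Φ p.1 p.2) (Ioo (-ε) ε ×ˢ ball x₀ ε) := by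
  obtain ⟨ε, hε, A, hAcd, hA, huniq⟩ := exists_sol g hg x₀ r hr
  have hone : (1 : ℝ) ∈ Icc (-1 : ℝ) 1 := by constructor <;> norm_num
  have hzero : (0 : ℝ) ∈ Icc (-1 : ℝ) 1 := by constructor <;> norm_num
  have hball : ∀ {t : ℝ} {x : F}, t ∈ Ioo (-ε) ε → x ∈ ball x₀ ε →
      (t, x) ∈ ball ((0 : ℝ), x₀) ε := by
    intro t x ht hx
    rw [mem_ball, Prod.dist_eq]
    refine max_lt ?_ hx
    rw [dist_zero_right, Real.norm_eq_abs, abs_lt]
    exact ht
  -- scaling
  have hscale : ∀ x ∈ ball x₀ ε, ∀ τ ∈ Ioo (-ε) ε, ∀ l (hl : l ∈ Icc (-1 : ℝ) 1),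
      A (l * τ, x) ⟨1, hone⟩ = A (τ, x) ⟨l, hl⟩ := by
    intro x hx τ hτ l hl
    have hlτ : l * τ ∈ Ioo (-ε) ε := by
      have h1 : |l * τ| < ε := by
        rw [abs_mul]
        have h2 : |τ| < ε := abs_lt.2 hτ
        have h3 : |l| ≤ 1 := abs_le.2 hl
        nlinarith [abs_nonneg τ, abs_nonneg l]
      exact abs_lt.1 h1
    have hmul : ∀ s : KI, l * (s : ℝ) ∈ Icc (-1 : ℝ) 1 := by
      intro s
      have h3 : |l| ≤ 1 := abs_le.2 hl
      have h4 : |(s : ℝ)| ≤ 1 := abs_le.2 s.2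
      have h5 : |l * (s : ℝ)| ≤ 1 := by
        rw [abs_mul]
        nlinarith [abs_nonneg l, abs_nonneg (s : ℝ)]
      exact abs_le.1 h5
    let β : C(KI, F) := ⟨fun s => ext (A (τ, x)) (l * s),
      (continuous_ext _).comp (continuous_const.mul continuous_subtype_val)⟩
    have hβs : ∀ s : KI, β s = ext (A (τ, x)) (l * s) := fun s => rfl
    have hβnorm : ‖β - cst F x₀‖ ≤ ‖A (τ, x) - cst F x₀‖ := by
      refine (ContinuousMap.norm_le _ (norm_nonneg _)).2 fun s => ?_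
      rw [ContinuousMap.sub_apply, hβs, ext_of_mem _ (hmul s)]
      exact (A (τ, x) - cst F x₀).norm_coe_le_norm ⟨l * s, hmul s⟩
    have hAτ := (Hm_eq_zero_iff g hg.continuous (τ, x) (A (τ, x))).1 (hA _ (hball hτ hx)).1
    have hH : Hm g hg.continuous ((l * τ, x), β) = 0 := by
      rw [Hm_eq_zero_iff]
      intro s
      rw [hβs, ext_of_mem _ (hmul s), hAτ ⟨l * s, hmul s⟩]
      simp only
      congr 1
      rw [mul_comm l τ, mul_smul]
      congr 1
      rw [← mul_zero l, ← intervalIntegral.smul_integral_comp_mul_left, mul_zero]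
      congr 1
      refine intervalIntegral.integral_congr fun u hu => ?_
      have hu1 : u ∈ Icc (-1 : ℝ) 1 := by
        rw [uIcc, mem_Icc] at hu
        have := s.2
        constructor
        · exact le_trans (le_inf (by norm_num) this.1) hu.1
        · exact le_trans hu.2 (sup_le (by norm_num) this.2)
      show g (ext (A (τ, x)) (l * u)) = g (ext β u)
      rw [ext_of_mem β hu1, hβs]
    have h := huniq _ (hball hlτ hx) _ (hball hτ hx) β hβnorm hH
    rw [← h, hβs, mul_one, ext_of_mem _ hl]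
  refine ⟨ε, hε, fun t x => A (t, x) ⟨1, hone⟩, ?_, ?_, ?_⟩
  · intro x hx
    have h0 : (0 : ℝ) ∈ Ioo (-ε) ε := ⟨by linarith, hε⟩
    have h := (Hm_eq_zero_iff g hg.continuous (0, x) (A (0, x))).1 (hA _ (hball h0 hx)).1 ⟨1, hone⟩
    rw [zero_smul, add_zero] at h
    exact h
  · intro x hx t ht
    refine ⟨?_, ?_⟩
    · rw [mem_ball_iff_norm]
      exact ((A (t, x) - cst F x₀).norm_coe_le_norm ⟨1, hone⟩).trans_lt (hA _ (hball ht hx)).2
    · have habs : |t| < ε := abs_lt.2 ht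
      set τ := (|t| + ε) / 2 with hτdef
      have hτ1 : |t| < τ := by rw [hτdef]; linarith
      have hτ0 : 0 < τ := (abs_nonneg t).trans_lt hτ1
      have hτ2 : τ < ε := by rw [hτdef]; linarith
      have hτ : τ ∈ Ioo (-ε) ε := ⟨by linarith, hτ2⟩
      have hAτ := (Hm_eq_zero_iff g hg.continuous (τ, x) (A (τ, x))).1 (hA _ (hball hτ hx)).1
      have hval : ∀ t', |t'| < τ → A (t', x) ⟨1, hone⟩
          = x + τ • ∫ u in (0 : ℝ)..(t' / τ), g (ext (A (τ, x)) u) := by
        intro t' ht'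
        have hl : t' / τ ∈ Icc (-1 : ℝ) 1 := by
          rw [mem_Icc, ← abs_le, abs_div, abs_of_pos hτ0]
          exact (div_le_one hτ0).2 ht'.le
        have h1 := hscale x hx τ hτ (t' / τ) hl
        rw [div_mul_cancel₀ _ hτ0.ne'] at h1
        rw [h1, hAτ]
      have hl : t / τ ∈ Icc (-1 : ℝ) 1 := by
        rw [mem_Icc, ← abs_le, abs_div, abs_of_pos hτ0]
        exact (div_le_one hτ0).2 hτ1.le
      have hgval : g (A (t, x) ⟨1, hone⟩) = g (ext (A (τ, x)) (t / τ)) := by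
        have h1 := hscale x hx τ hτ (t / τ) hl
        rw [div_mul_cancel₀ _ hτ0.ne'] at h1
        rw [h1, ext_of_mem _ hl]
      have hcont : Continuous (fun u => g (ext (A (τ, x)) u)) :=
        hg.continuous.comp (continuous_ext _)
      have hd1 : HasDerivAt (fun y : ℝ => ∫ u in (0 : ℝ)..y, g (ext (A (τ, x)) u))
          (g (ext (A (τ, x)) (t / τ))) (t / τ) :=
        intervalIntegral.integral_hasDerivAt_right (hcont.intervalIntegrable _ _)
          (hcont.stronglyMeasurableAtFilter _ _) hcont.continuousAt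
      have hd2 : HasDerivAt (fun t' : ℝ => t' / τ) (1 / τ) t := (hasDerivAt_id t).div_const τ
      have hd3 := (hd1.scomp t hd2).const_smul τ
      have hd4 := hd3.const_add x
      have heq : (fun t' => A (t', x) ⟨1, hone⟩) =ᶠ[𝓝 t]
          (fun t' => x + τ • ((fun y : ℝ => ∫ u in (0 : ℝ)..y, g (ext (A (τ, x)) u)) ∘
            fun t' : ℝ => t' / τ) t') := by
        have : ∀ᶠ t' in 𝓝 t, |t'| < τ := (continuous_abs.continuousAt).eventually
          (Iio_mem_nhds hτ1)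
        filter_upwards [this] with t' ht'
        exact hval t' ht'
      refine (hd4.congr_of_eventuallyEq heq).congr_deriv ?_
      rw [hgval, smul_smul, mul_one_div_cancel hτ0.ne', one_smul]
  · have h1 : ContDiffOn ℝ ∞ (fun p : ℝ × F => A p) (Ioo (-ε) ε ×ˢ ball x₀ ε) := by
      refine hAcd.mono ?_
      rintro ⟨t, x⟩ ⟨ht, hx⟩
      exact hball ht hx
    exact h1.continuousLinearMap_comp (ContinuousMap.evalCLM ℝ (⟨1, hone⟩ : KI))

end Flow

end Ode

section Main

variable {F : Type} [NormedAddCommGroup F] [NormedSpace ℝ F] [FiniteDimensional ℝ F]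

/-- Local flow of a smooth vector field, smooth dependence. -/
theorem exists_flow_smooth (f : F → F) (U : Set F) (hU : IsOpen U) (hf : ContDiffOn ℝ ∞ f U)
    (x₀ : F) (hx₀ : x₀ ∈ U) :
    ∃ ε > 0, ∃ W : Set F, IsOpen W ∧ x₀ ∈ W ∧ ∃ Φ : ℝ → F → F,
      (∀ x ∈ W, Φ 0 x = x) ∧
      (∀ x ∈ W, ∀ t ∈ Ioo (-ε) ε, Φ t x ∈ U ∧ HasDerivAt (fun s => Φ s x) (f (Φ t x)) t) ∧
      ContDiffOn ℝ ∞ (fun p : ℝ × F => Φ p.1 p.2) (Ioo (-ε) ε ×ˢ W) := by
  have : CompleteSpace F := FiniteDimensional.complete ℝ F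
  obtain ⟨R, hR, hRU⟩ := Metric.isOpen_iff.1 hU x₀ hx₀
  let χ : ContDiffBump x₀ := ⟨R / 4, R / 2, by positivity, by linarith⟩
  set g : F → F := fun x => χ x • f x with hg
  have hgs : ContDiff ℝ ∞ g := by
    rw [contDiff_iff_contDiffAt]
    intro x
    by_cases hx : x ∈ ball x₀ R
    · have h1 : ContDiffAt ℝ ∞ f x := hf.contDiffAt (hU.mem_nhds (hRU hx))
      exact (χ.contDiff.contDiffAt).smul h1
    · have hev : ∀ᶠ y in 𝓝 x, g y = 0 := by
        have hopen : IsOpen (closedBall x₀ (R / 2))ᶜ := isClosed_closedBall.isOpen_compl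
        have hx' : x ∈ (closedBall x₀ (R / 2))ᶜ := by
          intro h
          apply hx
          rw [mem_closedBall] at h
          rw [mem_ball]
          linarith
        filter_upwards [hopen.mem_nhds hx'] with y hy
        have : χ y = 0 := by
          apply χ.zero_of_le_dist
          rw [mem_compl_iff, mem_closedBall, not_le] at hy
          exact hy.le
        simp [hg, this]
      exact contDiffAt_const.congr_of_eventuallyEq (f := fun _ => (0 : F)) hev
  obtain ⟨ε, hε, Φ, h0, h1, h2⟩ := Ode.exists_flow_global g hgs x₀ (R / 4) (by positivity)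
  refine ⟨ε, hε, ball x₀ ε, isOpen_ball, mem_ball_self hε, Φ, h0, ?_, h2⟩
  intro x hx t ht
  obtain ⟨h3, h4⟩ := h1 x hx t ht
  have hone : χ (Φ t x) = 1 := by
    apply χ.one_of_mem_closedBall
    exact ball_subset_closedBall h3
  refine ⟨hRU (ball_subset_ball (by linarith) h3), ?_⟩
  have : g (Φ t x) = f (Φ t x) := by simp [hg, hone]
  rwa [this] at h4

/-- The variational equation. -/
theorem variational {f : F → F} {U : Set F} (hU : IsOpen U) (hf : ContDiffOn ℝ ∞ f U)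
    {ε : ℝ} {W : Set F} (hW : IsOpen W) {Φ : ℝ → F → F}
    (h1 : ∀ x ∈ W, ∀ t ∈ Ioo (-ε) ε, Φ t x ∈ U ∧ HasDerivAt (fun s => Φ s x) (f (Φ t x)) t)
    (h2 : ContDiffOn ℝ ∞ (fun p : ℝ × F => Φ p.1 p.2) (Ioo (-ε) ε ×ˢ W))
    {x : F} (hx : x ∈ W) (w : F) {t : ℝ} (ht : t ∈ Ioo (-ε) ε) :
    HasDerivAt (fun s => fderiv ℝ (Φ s) x w) (fderiv ℝ f (Φ t x) (fderiv ℝ (Φ t) x w)) t := by
  set G : ℝ × F → F := fun p => Φ p.1 p.2 with hG
  have hO : IsOpen (Ioo (-ε) ε ×ˢ W) := isOpen_Ioo.prod hW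
  have hGd : ∀ p ∈ Ioo (-ε) ε ×ˢ W, ContDiffAt ℝ ∞ G p := fun p hp =>
    h2.contDiffAt (hO.mem_nhds hp)
  have hGd' : ∀ p ∈ Ioo (-ε) ε ×ˢ W, DifferentiableAt ℝ G p := fun p hp =>
    (hGd p hp).differentiableAt (by simp)
  -- partial derivatives
  have hpx : ∀ s ∈ Ioo (-ε) ε, ∀ y ∈ W, ∀ v, fderiv ℝ (Φ s) y v = fderiv ℝ G (s, y) (0, v) := by
    intro s hs y hy v
    have e1 : HasFDerivAt (fun z : F => ((s, z) : ℝ × F)) (ContinuousLinearMap.inr ℝ ℝ F) y := by
      have := (hasFDerivAt_const s y).prodMk (hasFDerivAt_id (𝕜 := ℝ) y)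
      exact this
    have e2 : HasFDerivAt (Φ s) ((fderiv ℝ G (s, y)).comp (ContinuousLinearMap.inr ℝ ℝ F)) y :=
      (hGd' (s, y) ⟨hs, hy⟩).hasFDerivAt.comp y e1
    rw [e2.fderiv]
    rfl
  have hpt : ∀ s ∈ Ioo (-ε) ε, ∀ y ∈ W, fderiv ℝ G (s, y) (1, 0) = f (G (s, y)) := by
    intro s hs y hy
    have e1 : HasDerivAt (fun z : ℝ => ((z, y) : ℝ × F)) ((1 : ℝ), (0 : F)) s :=
      (hasDerivAt_id s).prodMk (hasDerivAt_const s y)
    have e2 : HasDerivAt (fun z : ℝ => G (z, y)) (fderiv ℝ G (s, y) (1, 0)) s :=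
      HasFDerivAt.comp_hasDerivAt (l := G) (f := fun z : ℝ => ((z, y) : ℝ × F)) s
        (hGd' (s, y) ⟨hs, hy⟩).hasFDerivAt e1
    exact e2.unique (h1 y hy s hs).2
  have hmem : ((t, x) : ℝ × F) ∈ Ioo (-ε) ε ×ˢ W := ⟨ht, hx⟩
  have hG2 : ContDiffAt ℝ 2 G (t, x) := (hGd _ hmem).of_le (by norm_cast)
  have hD : DifferentiableAt ℝ (fderiv ℝ G) (t, x) :=
    (hG2.fderiv_right (m := 1) (by norm_num)).differentiableAt (by simp)
  have hsymm : fderiv ℝ (fderiv ℝ G) (t, x) (1, 0) (0, w)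
      = fderiv ℝ (fderiv ℝ G) (t, x) (0, w) (1, 0) :=
    (hG2.isSymmSndFDerivAt (by simp)) _ _
  -- derivative of `s ↦ fderiv G (s,x) (0,w)`
  have k1 : HasDerivAt (fun s : ℝ => fderiv ℝ G (s, x) (0, w))
      (fderiv ℝ (fderiv ℝ G) (t, x) (1, 0) (0, w)) t := by
    have e1 : HasDerivAt (fun z : ℝ => ((z, x) : ℝ × F)) ((1 : ℝ), (0 : F)) t :=
      (hasDerivAt_id t).prodMk (hasDerivAt_const t x)
    have e2 : HasDerivAt (fun z : ℝ => fderiv ℝ G (z, x)) (fderiv ℝ (fderiv ℝ G) (t, x) (1, 0)) t :=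
      hD.hasFDerivAt.comp_hasDerivAt t e1
    exact (ContinuousLinearMap.apply ℝ F ((0, w) : ℝ × F)).hasFDerivAt.comp_hasDerivAt t e2
  have k2 : HasDerivAt (fun s : ℝ => fderiv ℝ (Φ s) x w)
      (fderiv ℝ (fderiv ℝ G) (t, x) (1, 0) (0, w)) t := by
    refine k1.congr_of_eventuallyEq ?_
    filter_upwards [isOpen_Ioo.mem_nhds ht] with s hs
    exact hpx s hs x hx w
  -- the other order
  have k3 : fderiv ℝ (fderiv ℝ G) (t, x) (0, w) (1, 0)
      = fderiv ℝ f (Φ t x) (fderiv ℝ (Φ t) x w) := by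
    have hfd : HasFDerivAt f (fderiv ℝ f (G (t, x))) (G (t, x)) :=
      ((hf.contDiffAt (hU.mem_nhds (h1 x hx t ht).1)).differentiableAt (by simp)).hasFDerivAt
    have e1 : HasFDerivAt (fun p => f (G p)) ((fderiv ℝ f (G (t, x))).comp (fderiv ℝ G (t, x)))
        (t, x) := hfd.comp (t, x) (hGd' _ hmem).hasFDerivAt
    have e2 : HasFDerivAt (fun p => fderiv ℝ G p (1, 0))
        ((ContinuousLinearMap.apply ℝ F ((1, 0) : ℝ × F)).comp (fderiv ℝ (fderiv ℝ G) (t, x)))
        (t, x) :=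
      (ContinuousLinearMap.apply ℝ F ((1, 0) : ℝ × F)).hasFDerivAt.comp (t, x) hD.hasFDerivAt
    have e3 : (fun p => fderiv ℝ G p (1, 0)) =ᶠ[𝓝 (t, x)] (fun p => f (G p)) := by
      filter_upwards [hO.mem_nhds hmem] with p hp
      exact hpt p.1 hp.1 p.2 hp.2
    have e4 := (e1.congr_of_eventuallyEq e3).unique e2
    have e5 := DFunLike.congr_fun e4 ((0, w) : ℝ × F)
    simp only [ContinuousLinearMap.comp_apply, ContinuousLinearMap.apply_apply] at e5
    rw [← e5, hpx t ht x hx w]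
  rw [hsymm, k3] at k2
  exact k2

/-- T1: local flow, `C^1` in all variables, with the variational equation. -/
theorem exists_flow (f : F → F) (U : Set F) (hU : IsOpen U) (hf : ContDiffOn ℝ ∞ f U)
    (x₀ : F) (hx₀ : x₀ ∈ U) :
    ∃ ε > 0, ∃ W : Set F, IsOpen W ∧ x₀ ∈ W ∧ ∃ Φ : ℝ → F → F,
      (∀ x ∈ W, Φ 0 x = x) ∧
      (∀ x ∈ W, ∀ t ∈ Ioo (-ε) ε, Φ t x ∈ U ∧ HasDerivAt (fun s => Φ s x) (f (Φ t x)) t) ∧
      ContDiffOn ℝ 1 (fun p : ℝ × F => Φ p.1 p.2) (Ioo (-ε) ε ×ˢ W) ∧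
      (∀ x ∈ W, ∀ w, ∀ t ∈ Ioo (-ε) ε,
        HasDerivAt (fun s => fderiv ℝ (Φ s) x w)
          (fderiv ℝ f (Φ t x) (fderiv ℝ (Φ t) x w)) t) := by
  obtain ⟨ε, hε, W, hW, hx₀W, Φ, h0, h1, h2⟩ := exists_flow_smooth f U hU hf x₀ hx₀
  exact ⟨ε, hε, W, hW, hx₀W, Φ, h0, h1, h2.of_le (by simp), fun x hx w t ht =>
    variational hU hf hW h1 h2 hx w ht⟩

end Main

end Vale.Agent.P255
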