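import Mathlib.Topology.IsLocalHomeomorph
import Mathlib.Topology.Order.IntermediateValue
import Mathlib.Topology.Instances.Real.Lemmas

/-!
# P255: lifting a path through a local homeomorphism when all partial lifts stay in a compact set
-/

open Topology Set Filter

namespace Vale.Agent.P255

variable {E X : Type*} [TopologicalSpace E] [TopologicalSpace X] {p : E → X} {γ : ℝ → X} {e : E}

/-- `Γ` lifts `γ` on `[0,T]`, starting at `e`. -/
def IsLiftOn (p : E → X) (γ : ℝ → X) (e : E) (T : ℝ) (Γ : ℝ → E) : Prop :=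
  ContinuousOn Γ (Icc 0 T) ∧ (∀ t ∈ Icc 0 T, p (Γ t) = γ t) ∧ Γ 0 = e

omit [TopologicalSpace X] in
theorem IsLiftOn.mono {T T' : ℝ} {Γ : ℝ → E} (h : IsLiftOn p γ e T Γ) (hT : T' ≤ T) :
    IsLiftOn p γ e T' Γ :=
  ⟨h.1.mono (Icc_subset_Icc_right hT), fun t ht => h.2.1 t (Icc_subset_Icc_right hT ht), h.2.2⟩

theorem IsLiftOn.extend (q : OpenPartialHomeomorph E X) (hq : p = q) {s T : ℝ} (h0 : 0 ≤ s)
    (hsT : s ≤ T) {Γ : ℝ → E} (hΓ : IsLiftOn p γ e s Γ) (hV : Γ s ∈ q.source)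
    (hW : ∀ t ∈ Icc s T, γ t ∈ q.target) (hγ : ContinuousOn γ (Icc s T)) :
    ∃ Γ', IsLiftOn p γ e T Γ' := by
  have hs : γ s = q (Γ s) := by rw [← hΓ.2.1 s ⟨h0, le_rfl⟩, hq]
  have hs' : q.symm (γ s) = Γ s := by rw [hs, q.left_inv hV]
  refine ⟨fun t => if t ≤ s then Γ t else q.symm (γ t), ?_, ?_, ?_⟩
  · have h1 : ContinuousOn (fun t => if t ≤ s then Γ t else q.symm (γ t)) (Icc 0 s) :=
      hΓ.1.congr (fun t ht => by simp [ht.2])
    have h2 : ContinuousOn (fun t => if t ≤ s then Γ t else q.symm (γ t)) (Icc s T) := by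
      refine (q.continuousOn_symm.comp hγ (fun t ht => hW t ht)).congr (fun t ht => ?_)
      by_cases h : t ≤ s
      · have : t = s := le_antisymm h ht.1
        subst this
        simp [hs']
      · simp [h]
    have h3 := h1.union_of_isClosed h2 isClosed_Icc isClosed_Icc
    rwa [Icc_union_Icc_eq_Icc h0 hsT] at h3
  · intro t ht
    by_cases h : t ≤ s
    · simp only [h, if_true]
      exact hΓ.2.1 t ⟨ht.1, h⟩
    · simp only [h, if_false]
      rw [hq]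
      exact q.right_inv (hW t ⟨(not_le.1 h).le, ht.2⟩)
  · simp [h0, hΓ.2.2]

theorem exists_lift [T2Space X] (hp : IsLocalHomeomorph p) (hγ : ContinuousOn γ (Icc 0 1))
    (he : p e = γ 0) {K : Set E} (hK : IsCompact K)
    (hb : ∀ T ∈ Icc (0 : ℝ) 1, ∀ Γ, IsLiftOn p γ e T Γ → ∀ t ∈ Icc 0 T, Γ t ∈ K) :
    ∃ Γ, IsLiftOn p γ e 1 Γ := by
  set S : Set ℝ := {T | ∃ Γ, IsLiftOn p γ e T Γ} with hS
  have h0 : (0 : ℝ) ∈ S := by
    refine ⟨fun _ => e, continuousOn_const, fun t ht => ?_, rfl⟩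
    have : t = 0 := le_antisymm ht.2 ht.1
    rw [this, he]
  have hclosed : IsClosed (S ∩ Icc 0 1) := by
    rw [isClosed_iff_frequently]
    intro T hT
    have hT01 : T ∈ Icc (0 : ℝ) 1 := by
      have : ∃ᶠ y in 𝓝 T, y ∈ Icc (0 : ℝ) 1 := hT.mono (fun y hy => hy.2)
      exact isClosed_iff_frequently.1 isClosed_Icc T this
    refine ⟨?_, hT01⟩
    -- endpoints
    have : Nonempty E := ⟨e⟩
    choose! Γ hΓ using (fun T (h : T ∈ S) => h)
    have hne : (𝓝[S ∩ Icc 0 1] T).NeBot := by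
      rw [← mem_closure_iff_nhdsWithin_neBot, mem_closure_iff_frequently]
      exact hT
    have hmem : ∀ᶠ s in 𝓝[S ∩ Icc 0 1] T, Γ s s ∈ K := by
      filter_upwards [self_mem_nhdsWithin] with s hs
      exact hb s hs.2 (Γ s) (hΓ s hs.1) s ⟨hs.2.1, le_rfl⟩
    obtain ⟨v, hvK, hv⟩ := hK.exists_clusterPt (f := map (fun s => Γ s s) (𝓝[S ∩ Icc 0 1] T))
      (le_principal_iff.2 (mem_map.2 hmem))
    have hpv : p v = γ T := by
      have h1 : ClusterPt (p v) (map p (map (fun s => Γ s s) (𝓝[S ∩ Icc 0 1] T))) :=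
        hv.map hp.continuous.continuousAt tendsto_map
      have h2 : Tendsto (fun s => p (Γ s s)) (𝓝[S ∩ Icc 0 1] T) (𝓝 (γ T)) := by
        have h3 : Tendsto γ (𝓝[S ∩ Icc 0 1] T) (𝓝 (γ T)) :=
          (hγ T hT01).mono_left (nhdsWithin_mono _ inter_subset_right)
        refine h3.congr' ?_
        filter_upwards [self_mem_nhdsWithin] with s hs
        exact ((hΓ s hs.1).2.1 s ⟨hs.2.1, le_rfl⟩).symm
      rw [map_map] at h1
      have h4 : ClusterPt (p v) (𝓝 (γ T)) := h1.mono h2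
      exact eq_of_nhds_neBot h4
    obtain ⟨q, hvq, hq⟩ := hp v
    have hW : q.target ∈ 𝓝 (γ T) := by
      rw [← hpv, hq]
      exact q.open_target.mem_nhds (q.map_source hvq)
    have hγT : ∀ᶠ s in 𝓝[Icc 0 1] T, γ s ∈ q.target := (hγ T hT01) hW
    obtain ⟨ε, hε, hεW⟩ := Metric.mem_nhdsWithin_iff.1 hγT
    have hfr : ∃ᶠ s in 𝓝[S ∩ Icc 0 1] T, Γ s s ∈ q.source := by
      have := hv.frequently (q.open_source.mem_nhds hvq)
      exact this
    have hev1 : ∀ᶠ s in 𝓝[S ∩ Icc 0 1] T, s ∈ S ∩ Icc 0 1 := self_mem_nhdsWithin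
    have hev2 : ∀ᶠ s in 𝓝[S ∩ Icc 0 1] T, s ∈ Metric.ball T ε :=
      nhdsWithin_le_nhds (Metric.ball_mem_nhds T hε)
    obtain ⟨s, hs1, hs2, hs3⟩ := (hfr.and_eventually (hev1.and hev2)).exists
    rcases le_or_gt T s with h | h
    · exact ⟨Γ s, (hΓ s hs2.1).mono h⟩
    · refine (hΓ s hs2.1).extend q hq hs2.2.1 h.le hs1 (fun t ht => hεW ⟨?_, ?_⟩)
        (hγ.mono (Icc_subset_Icc hs2.2.1 hT01.2))
      · rw [Metric.mem_ball, Real.dist_eq, abs_lt] at hs3 ⊢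
        constructor <;> linarith [ht.1, ht.2, hs3.1]
      · exact ⟨hs2.2.1.trans ht.1, ht.2.trans hT01.2⟩
  have hmain : Icc (0 : ℝ) 1 ⊆ S := by
    refine hclosed.Icc_subset_of_forall_mem_nhdsWithin h0 ?_
    rintro T ⟨⟨Γ, hΓ⟩, hT0, hT1⟩
    obtain ⟨q, hvq, hq⟩ := hp (Γ T)
    have hW : q.target ∈ 𝓝 (γ T) := by
      rw [← hΓ.2.1 T ⟨hT0, le_rfl⟩, hq]
      exact q.open_target.mem_nhds (q.map_source hvq)
    have hγT : ∀ᶠ s in 𝓝[Icc 0 1] T, γ s ∈ q.target := (hγ T ⟨hT0, hT1.le⟩) hW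
    obtain ⟨ε, hε, hεW⟩ := Metric.mem_nhdsWithin_iff.1 hγT
    have : Ioo T (min (T + ε) 1) ∈ 𝓝[>] T := Ioo_mem_nhdsGT (by simp [hε, hT1])
    filter_upwards [this] with s hs
    refine hΓ.extend q hq hT0 hs.1.le hvq (fun t ht => hεW ⟨?_, ?_⟩)
        (hγ.mono (Icc_subset_Icc hT0 (hs.2.le.trans (min_le_right _ _))))
    · rw [Metric.mem_ball, Real.dist_eq, abs_lt]
      have := hs.2.trans_le (min_le_left _ _)
      constructor <;> linarith [ht.1, ht.2]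
    · exact ⟨hT0.trans ht.1, ht.2.trans (hs.2.le.trans (min_le_right _ _))⟩
  exact hmain ⟨zero_le_one, le_rfl⟩

end Vale.Agent.P255
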