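import Vale.Agent.P255.MathlibUsed

/-!
# P255: definitions used by the final statement
All notions are for the `C^∞` Riemannian metrics of Mathlib on a smooth manifold `M` without
boundary, modelled on `E`, and are written in the charts `chartAt E a`, `a : M`.
-/

open scoped Manifold ContDiff
open Bundle

noncomputable section

namespace Vale.Agent.P255

section Coordinates

variable {E : Type} [NormedAddCommGroup E] [NormedSpace ℝ E]

/-- Christoffel symbols of the metric coefficients `G` (`G u v w` is the inner product of `v` and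
`w` at the point `u`): the vector `x` such that, for all `z`,
`G u x z = (D_v G(w,z) + D_w G(v,z) - D_z G(v,w)) / 2`. -/
def Gam (G : E → E → E → ℝ) (u v w : E) : E :=
  Classical.epsilon fun x : E => ∀ z : E, G u x z =
    (fderiv ℝ (fun p => G p w z) u v + fderiv ℝ (fun p => G p v z) u w
      - fderiv ℝ (fun p => G p v w) u z) / 2

/-- Curvature tensor `R(x,y)z`. -/
def Riem (G : E → E → E → ℝ) (u x y z : E) : E :=
  fderiv ℝ (fun p => Gam G p y z) u x - fderiv ℝ (fun p => Gam G p x z) u y
    + Gam G u x (Gam G u y z) - Gam G u y (Gam G u x z)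

/-- Covariant derivative, along the curve `c`, of the field `Y`. -/
def CovDer (G : E → E → E → ℝ) (c Y : ℝ → E) (t : ℝ) : E :=
  deriv Y t + Gam G (c t) (deriv c t) (Y t)

end Coordinates

section Manifold

variable (E : Type) [NormedAddCommGroup E] [NormedSpace ℝ E]
variable (M : Type) [TopologicalSpace M] [ChartedSpace E M]

/-- Smooth Riemannian metrics on the manifold `M`. -/
abbrev RMetric [IsManifold 𝓘(ℝ, E) ∞ M] : Type :=
  ContMDiffRiemannianMetric 𝓘(ℝ, E) ∞ E (fun x : M => TangentSpace 𝓘(ℝ, E) x)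

variable {E M}

/-- The curve `γ` read in the chart at `a`. -/
def curveIn (γ : ℝ → M) (a : M) (t : ℝ) : E := chartAt E a (γ t)

/-- The components, in the chart at `a`, of a vector field `J` along the curve `γ`. -/
def fieldIn (γ : ℝ → M) (J : ∀ t, TangentSpace 𝓘(ℝ, E) (γ t)) (a : M) (t : ℝ) : E :=
  mfderiv 𝓘(ℝ, E) 𝓘(ℝ, E) (chartAt E a) (γ t) (J t)

variable [IsManifold 𝓘(ℝ, E) ∞ M]

/-- The inner product of two tangent vectors at `p`. -/
def innerAt (g : RMetric E M) (p : M) (v w : TangentSpace 𝓘(ℝ, E) p) : ℝ := g.inner p v w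

/-- The coefficients of the metric `g` in the chart at `a`, at the point `u` of the chart. -/
def coefIn (g : RMetric E M) (a : M) (u v w : E) : ℝ :=
  innerAt g ((chartAt E a).symm u)
    (mfderiv 𝓘(ℝ, E) 𝓘(ℝ, E) (chartAt E a).symm u v)
    (mfderiv 𝓘(ℝ, E) 𝓘(ℝ, E) (chartAt E a).symm u w)

/-- Geodesics `ℝ → M`: continuous curves which satisfy `D_t γ' = 0` in all charts. -/
def IsGeo (g : RMetric E M) (γ : ℝ → M) : Prop :=
  Continuous γ ∧ ∀ (a : M) (t : ℝ), γ t ∈ (chartAt E a).source →
    DifferentiableAt ℝ (curveIn (E := E) γ a) t ∧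
    DifferentiableAt ℝ (deriv (curveIn (E := E) γ a)) t ∧
    CovDer (coefIn g a) (curveIn γ a) (deriv (curveIn γ a)) t = 0

/-- Jacobi fields along `γ`: fields `J` with `D_t D_t J + R(J, γ') γ' = 0`. -/
def IsJac (g : RMetric E M) (γ : ℝ → M) (J : ∀ t, TangentSpace 𝓘(ℝ, E) (γ t)) : Prop :=
  ∀ (a : M) (t : ℝ), γ t ∈ (chartAt E a).source →
    DifferentiableAt ℝ (fieldIn γ J a) t ∧
    DifferentiableAt ℝ (CovDer (coefIn g a) (curveIn γ a) (fieldIn γ J a)) t ∧
    CovDer (coefIn g a) (curveIn γ a) (CovDer (coefIn g a) (curveIn γ a) (fieldIn γ J a)) t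
      + Riem (coefIn g a) (curveIn γ a t) (fieldIn γ J a t) (deriv (curveIn γ a) t)
        (deriv (curveIn γ a) t) = 0

/-- No conjugate points: a Jacobi field along a geodesic which vanishes at two distinct times
vanishes identically. -/
def NoConjugatePoints (g : RMetric E M) : Prop :=
  ∀ (γ : ℝ → M) (J : ∀ t, TangentSpace 𝓘(ℝ, E) (γ t)), IsGeo g γ → IsJac g γ J →
    ∀ t₁ t₂ : ℝ, t₁ ≠ t₂ → J t₁ = 0 → J t₂ = 0 → ∀ t, J t = 0

/-- Nonpositive sectional curvature: `⟨R(v,w)w, v⟩ ≤ 0` for all tangent vectors `v, w`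
(components in the chart at `a`) at all points. -/
def NonposCurvature (g : RMetric E M) : Prop :=
  ∀ (a : M), ∀ u ∈ (chartAt E a).target, ∀ v w : E,
    coefIn g a u (Riem (coefIn g a) u v w w) v ≤ 0

end Manifold

end Vale.Agent.P255
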