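import Vale.Agent.P255.CoordM

/-!
# P255: Riemannian geometry in one coordinate domain (continued)
-/

open scoped Manifold ContDiff Topology
open Set

set_option maxSynthPendingDepth 3

noncomputable section

namespace Vale.Agent.P255

variable {E : Type} [NormedAddCommGroup E] [NormedSpace ℝ E]

theorem Metric.isMetricOn {M : Type} [TopologicalSpace M] [ChartedSpace E M] (g : Metric E M)
    (a : M) : IsMetricOn (g.coef a) (chartAt E a).target where
  isOpen := (chartAt E a).open_target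
  smooth := g.smooth a
  symm := g.symm a
  pos := g.pos a

theorem chris_add_left (G : E → E →L[ℝ] E →L[ℝ] ℝ) (u v v' w : E) :
    chris G u (v + v') w = chris G u v w + chris G u v' w := by
  simp only [← chrisB_apply, map_add, add_apply]
theorem chris_add_right (G : E → E →L[ℝ] E →L[ℝ] ℝ) (u v w w' : E) :
    chris G u v (w + w') = chris G u v w + chris G u v w' := by
  simp only [← chrisB_apply, map_add]
theorem chris_smul_left (G : E → E →L[ℝ] E →L[ℝ] ℝ) (u : E) (c : ℝ) (v w : E) :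
    chris G u (c • v) w = c • chris G u v w := by
  simp only [← chrisB_apply, map_smul, smul_apply]
theorem chris_smul_right (G : E → E →L[ℝ] E →L[ℝ] ℝ) (u : E) (c : ℝ) (v w : E) :
    chris G u v (c • w) = c • chris G u v w := by
  simp only [← chrisB_apply, map_smul]
theorem chris_neg_left (G : E → E →L[ℝ] E →L[ℝ] ℝ) (u v w : E) :
    chris G u (-v) w = - chris G u v w := by
  simp only [← chrisB_apply, map_neg, neg_apply]
theorem chris_neg_right (G : E → E →L[ℝ] E →L[ℝ] ℝ) (u v w : E) :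
    chris G u v (-w) = - chris G u v w := by
  simp only [← chrisB_apply, map_neg]

/-- the bilinear Christoffel map, name used in the interface -/
abbrev chrisL (G : E → E →L[ℝ] E →L[ℝ] ℝ) (u : E) : E →L[ℝ] E →L[ℝ] E := chrisB G u

theorem chrisL_apply (G : E → E →L[ℝ] E →L[ℝ] ℝ) (u v w : E) :
    chrisL G u v w = chris G u v w := chrisB_apply G u v w

/-- the geodesic vector field -/
def geoField (G : E → E →L[ℝ] E →L[ℝ] ℝ) (p : E × E) : E × E :=
  (p.2, - chris G p.1 p.2 p.2)

theorem two_le_infty : (2 : ℕ∞ω) ≤ ∞ := ENat.LEInfty.out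

namespace IsMetricOn

variable {G : E → E →L[ℝ] E →L[ℝ] ℝ} {U : Set E}

theorem mem_nhds (h : IsMetricOn G U) {u : E} (hu : u ∈ U) : U ∈ 𝓝 u := h.isOpen.mem_nhds hu

/-- injectivity of `G u` -/
theorem ext (h : IsMetricOn G U) {u : E} (hu : u ∈ U) {v w : E} (hvw : ∀ z, G u v z = G u w z) :
    v = w := h.ext_of hu hvw

theorem fderiv_apply_apply (h : IsMetricOn G U) {u : E} (hu : u ∈ U) (z v w : E) :
    fderiv ℝ (fun x => G x v w) u z = fderiv ℝ G u z v w := by
  have hd := (h.differentiableAt hu).hasFDerivAt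
  have h2 := (hd.clm_apply (hasFDerivAt_const v u)).clm_apply (hasFDerivAt_const w u)
  rw [h2.fderiv]
  simp

theorem hasDerivAt_coef (h : IsMetricOn G U) {c : ℝ → E} {t : ℝ} (ht : c t ∈ U)
    (hc : DifferentiableAt ℝ c t) :
    HasDerivAt (fun s => G (c s)) (fderiv ℝ G (c t) (deriv c t)) t :=
  (h.differentiableAt ht).hasFDerivAt.comp_hasDerivAt t hc.hasDerivAt

section
variable [FiniteDimensional ℝ E] (h : IsMetricOn G U)
include h

theorem apply_inverse {u : E} (hu : u ∈ U) (φ : E →L[ℝ] ℝ) : G u ((G u).inverse φ) = φ :=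
  (h.isInvertible hu).self_apply_inverse φ

theorem contDiffOn_chrisL : ContDiffOn ℝ ∞ (chrisL G) U :=
  fun _ hu => (h.contDiffAt_chrisB hu).contDiffWithinAt

theorem contDiffOn_chris (v w : E) : ContDiffOn ℝ ∞ (fun u => chris G u v w) U :=
  fun _ hu => (h.contDiffAt_chris hu v w).contDiffWithinAt

/-- `D_z G (v,w) = G(Γ(z,v),w) + G(v,Γ(z,w))` -/
theorem fderiv_eq {u : E} (hu : u ∈ U) (z v w : E) :
    fderiv ℝ G u z v w = G u (chris G u z v) w + G u v (chris G u z w) :=
  h.chris_compat hu z v w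

/-- Euler-Lagrange form of the geodesic equation -/
theorem hasDerivAt_momentum {c : ℝ → E} {t : ℝ} (ht : c t ∈ U) (hc : DifferentiableAt ℝ c t)
    (hc' : DifferentiableAt ℝ (deriv c) t)
    (hgeo : deriv (deriv c) t = - chris G (c t) (deriv c t) (deriv c t)) (z : E) :
    HasDerivAt (fun s => G (c s) (deriv c s) z)
      ((1 / 2 : ℝ) * fderiv ℝ G (c t) z (deriv c t) (deriv c t)) t := by
  have h1 := h.hasDerivAt_coef ht hc
  have h2 := (h1.clm_apply hc'.hasDerivAt).clm_apply (hasDerivAt_const t z)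
  refine h2.congr_deriv ?_
  rw [hgeo]
  simp only [map_neg, add_apply, neg_apply, map_zero, h.chris_spec ht, add_zero]
  ring

/-- conversely, the Euler-Lagrange equations imply the geodesic equation -/
theorem geodesic_of_momentum {c : ℝ → E} {t : ℝ} (ht : c t ∈ U) (hc : DifferentiableAt ℝ c t)
    (hc' : DifferentiableAt ℝ (deriv c) t)
    (hm : ∀ z, HasDerivAt (fun s => G (c s) (deriv c s) z)
      ((1 / 2 : ℝ) * fderiv ℝ G (c t) z (deriv c t) (deriv c t)) t) :
    deriv (deriv c) t = - chris G (c t) (deriv c t) (deriv c t) := by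
  apply h.ext ht
  intro z
  have h1 := h.hasDerivAt_coef ht hc
  have h2 := (h1.clm_apply hc'.hasDerivAt).clm_apply (hasDerivAt_const t z)
  have h3 := h2.unique (hm z)
  simp only [add_apply, map_zero, add_zero] at h3
  simp only [map_neg, neg_apply, h.chris_spec ht]
  linarith

/-- the speed of a geodesic is constant -/
theorem hasDerivAt_speed {c : ℝ → E} {t : ℝ} (ht : c t ∈ U) (hc : DifferentiableAt ℝ c t)
    (hc' : DifferentiableAt ℝ (deriv c) t)
    (hgeo : deriv (deriv c) t = - chris G (c t) (deriv c t) (deriv c t)) :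
    HasDerivAt (fun s => G (c s) (deriv c s) (deriv c s)) 0 t := by
  refine (h.hasDerivAt_inner ht hc hc' hc').congr_deriv ?_
  have : covD G c (deriv c) t = 0 := by
    simp only [covD, hgeo]; simp
  rw [this]; simp

/-- antisymmetry of the curvature operator -/
theorem curv_antisymm {u : E} (hu : u ∈ U) (x y z w : E) :
    G u (curv G u x y z) w = - G u z (curv G u x y w) := by
  have h1 := h.curv_skew hu x y (z + w)
  have h2 := h.curv_skew hu x y z
  have h3 := h.curv_skew hu x y w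
  have h4 : curv G u x y (z + w) = curv G u x y z + curv G u x y w := by
    simp only [h.curv_eq hu, map_add]
    abel
  rw [h4] at h1
  simp only [map_add, add_apply] at h1
  rw [h.symm u hu z]
  linarith

theorem contDiffAt_geoField {p : E × E} (hp : p.1 ∈ U) : ContDiffAt ℝ ∞ (geoField G) p := by
  have h1 : ContDiffAt ℝ ∞ (fun x : E × E => chrisB G x.1) p :=
    ContDiffAt.comp p (h.contDiffAt_chrisB hp) contDiffAt_fst
  have h2 : ContDiffAt ℝ ∞ (fun x : E × E => chrisB G x.1 x.2 x.2) p :=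
    (h1.clm_apply contDiffAt_snd).clm_apply contDiffAt_snd
  have h3 : ContDiffAt ℝ ∞ (fun x : E × E => chris G x.1 x.2 x.2) p := by
    simpa only [chrisB_apply] using h2
  exact contDiffAt_snd.prodMk h3.neg

theorem contDiffOn_geoField : ContDiffOn ℝ ∞ (geoField G) (U ×ˢ univ) :=
  fun _ hp => (h.contDiffAt_geoField hp.1).contDiffWithinAt

theorem fderiv_geoField {u v : E} (hu : u ∈ U) (x y : E) :
    fderiv ℝ (geoField G) (u, v) (x, y) =
      (y, - (fderiv ℝ (fun p => chris G p v v) u x + (2 : ℝ) • chris G u v y)) := by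
  have h1 : HasFDerivAt (fun x : E × E => chrisB G x.1) ((fderiv ℝ (chrisB G) u).comp
      (ContinuousLinearMap.fst ℝ E E)) (u, v) :=
    HasFDerivAt.comp (f := Prod.fst) (g := chrisB G) (u, v)
      (h.differentiableAt_chrisB hu).hasFDerivAt
      (hasFDerivAt_fst (𝕜 := ℝ) (E := E) (F := E) (p := (u, v)))
  have h2 := (h1.clm_apply (hasFDerivAt_snd (𝕜 := ℝ) (E := E) (F := E) (p := (u, v)))).clm_apply
    (hasFDerivAt_snd (𝕜 := ℝ) (E := E) (F := E) (p := (u, v)))
  have h3 := (hasFDerivAt_snd (𝕜 := ℝ) (E := E) (F := E) (p := (u, v))).prodMk h2.neg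
  have e : geoField G = fun p : E × E => (p.2, - chrisB G p.1 p.2 p.2) := by
    funext p; simp only [geoField, chrisB_apply]
  have h4 := h3.congr_of_eventuallyEq (f₁ := geoField G) (Filter.Eventually.of_forall
    (fun p => by rw [e]; rfl))
  rw [h4.fderiv, h.fderiv_chris hu]
  simp [chrisB_apply, two_smul, h.chris_symm hu y v]
  abel

/-- a solution of the linearised geodesic equation is a Jacobi field -/
theorem jacobi_of_linearized {c J : ℝ → E} {t : ℝ}
    (ht : c t ∈ U) (hc : ∀ᶠ s in 𝓝 t, DifferentiableAt ℝ c s ∧ DifferentiableAt ℝ (deriv c) s ∧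
      deriv (deriv c) s = - chris G (c s) (deriv c s) (deriv c s))
    (_hJ : ∀ᶠ s in 𝓝 t, DifferentiableAt ℝ J s)
    (hJ' : HasDerivAt (deriv J) (- (fderiv ℝ (fun p => chris G p (deriv c t) (deriv c t)) (c t) (J t)
      + (2 : ℝ) • chris G (c t) (deriv c t) (deriv J t))) t) :
    DifferentiableAt ℝ (covD G c J) t ∧
    covD G c (covD G c J) t + curv G (c t) (J t) (deriv c t) (deriv c t) = 0 := by
  obtain ⟨hc0, hc1, hc2⟩ := hc.self_of_nhds
  have hJ0 := _hJ.self_of_nhds
  have hB : HasDerivAt (fun s => chrisB G (c s)) (fderiv ℝ (chrisB G) (c t) (deriv c t)) t :=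
    (h.differentiableAt_chrisB ht).hasFDerivAt.comp_hasDerivAt t hc0.hasDerivAt
  have hA := hJ'.add ((hB.clm_apply hc1.hasDerivAt).clm_apply hJ0.hasDerivAt)
  have e : covD G c J = (deriv J + fun s => chrisB G (c s) (deriv c s) (J s)) := by
    funext s; simp only [covD, Pi.add_apply, chrisB_apply]
  rw [← e] at hA
  refine ⟨hA.differentiableAt, ?_⟩
  have e2 : covD G c (covD G c J) t = deriv (covD G c J) t
      + chrisB G (c t) (deriv c t) (covD G c J t) := by
    simp only [covD, chrisB_apply]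
  rw [e2, hA.deriv, h.curv_eq ht, h.fderiv_chris ht, hc2]
  simp only [covD, map_add, map_neg, neg_apply, add_apply, chrisB_apply]
  have s1 : fderiv ℝ (chrisB G) (c t) (deriv c t) (J t) (deriv c t)
      = fderiv ℝ (chrisB G) (c t) (deriv c t) (deriv c t) (J t) := by
    rw [← h.fderiv_chris ht, ← h.fderiv_chris ht]
    have : (fun p => chris G p (J t) (deriv c t)) =ᶠ[𝓝 (c t)]
        fun p => chris G p (deriv c t) (J t) := by
      filter_upwards [h.mem_nhds ht] with p hp using h.chris_symm hp _ _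
    rw [this.fderiv_eq]
  rw [s1, h.chris_symm ht (J t) (chris G (c t) (deriv c t) (deriv c t)),
    h.chris_symm ht (J t) (deriv c t), two_smul]
  abel


/-- an isometric change of coordinates transforms the Christoffel symbols in the usual way -/
theorem chris_trans {G₂ : E → E →L[ℝ] E →L[ℝ] ℝ} {U₂ : Set E} (h₂ : IsMetricOn G₂ U₂)
    {τ : E → E} {u : E} (hu : u ∈ U) (hu₂ : τ u ∈ U₂) (hτ : ContDiffAt ℝ ∞ τ u)
    (hiso : ∀ᶠ x in 𝓝 u, ∀ v w, G₂ (τ x) (fderiv ℝ τ x v) (fderiv ℝ τ x w) = G x v w)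
    (v w : E) :
    fderiv ℝ τ u (chris G u v w)
      = chris G₂ (τ u) (fderiv ℝ τ u v) (fderiv ℝ τ u w) + fderiv ℝ (fderiv ℝ τ) u v w := by
  have hτ' : DifferentiableAt ℝ (fderiv ℝ τ) u :=
    (hτ.fderiv_right (m := ∞) (by simp)).differentiableAt (by simp)
  have hτ0 : DifferentiableAt ℝ τ u := hτ.differentiableAt (by simp)
  have hsym : ∀ a b, fderiv ℝ (fderiv ℝ τ) u a b = fderiv ℝ (fderiv ℝ τ) u b a := fun a b =>
    (hτ.isSymmSndFDerivAt (by simpa using two_le_infty)) a b
  have hiso0 := hiso.self_of_nhds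
  -- derivative of the isometry identity
  have key : ∀ z v w, fderiv ℝ G u z v w =
      fderiv ℝ G₂ (τ u) (fderiv ℝ τ u z) (fderiv ℝ τ u v) (fderiv ℝ τ u w)
      + G₂ (τ u) (fderiv ℝ (fderiv ℝ τ) u z v) (fderiv ℝ τ u w)
      + G₂ (τ u) (fderiv ℝ τ u v) (fderiv ℝ (fderiv ℝ τ) u z w) := by
    intro z v w
    rw [← h.fderiv_apply_apply hu]
    have e1 : (fun x => G x v w) =ᶠ[𝓝 u]
        fun x => G₂ (τ x) (fderiv ℝ τ x v) (fderiv ℝ τ x w) := by
      filter_upwards [hiso] with x hx using (hx v w).symm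
    rw [e1.fderiv_eq]
    have d1 : HasFDerivAt (fun x => G₂ (τ x)) ((fderiv ℝ G₂ (τ u)).comp (fderiv ℝ τ u)) u :=
      HasFDerivAt.comp (f := τ) (g := G₂) u (h₂.differentiableAt hu₂).hasFDerivAt hτ0.hasFDerivAt
    have d2 : ∀ a, HasFDerivAt (fun x => fderiv ℝ τ x a) _ u := fun a =>
      hτ'.hasFDerivAt.clm_apply (hasFDerivAt_const a u)
    rw [((d1.clm_apply (d2 v)).clm_apply (d2 w)).fderiv]
    simp
    ring
  -- injectivity and surjectivity of the derivative
  have hinj : Function.Injective (fderiv ℝ τ u : E →ₗ[ℝ] E) := by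
    rw [injective_iff_map_eq_zero]
    intro a ha
    apply h.eq_zero hu
    rw [← hiso0 a a]
    have : fderiv ℝ τ u a = 0 := ha
    rw [this]; simp
  have hsurj : Function.Surjective (fderiv ℝ τ u : E →ₗ[ℝ] E) :=
    LinearMap.injective_iff_surjective.mp hinj
  apply h₂.ext hu₂
  intro z'
  obtain ⟨z, hz⟩ := hsurj z'
  have hz' : z' = fderiv ℝ τ u z := hz.symm
  subst hz'
  rw [hiso0, h.chris_spec hu, map_add, add_apply, h₂.chris_spec hu₂, key v w z, key w v z,
    key z v w, hsym w v, hsym z v, hsym z w]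
  have s1 := h₂.symm _ hu₂ (fderiv ℝ τ u v) (fderiv ℝ (fderiv ℝ τ) u w z)
  have s2 := h₂.symm _ hu₂ (fderiv ℝ τ u w) (fderiv ℝ (fderiv ℝ τ) u v z)
  linarith

/-- the geodesic equation is invariant under isometric changes of coordinates -/
theorem geodesic_trans {G₂ : E → E →L[ℝ] E →L[ℝ] ℝ} {U₂ : Set E} (h₂ : IsMetricOn G₂ U₂)
    {τ : E → E} {c : ℝ → E} {t : ℝ} (hu : c t ∈ U) (hu₂ : τ (c t) ∈ U₂)
    (hτ : ContDiffAt ℝ ∞ τ (c t))
    (hiso : ∀ᶠ x in 𝓝 (c t), ∀ v w, G₂ (τ x) (fderiv ℝ τ x v) (fderiv ℝ τ x w) = G x v w)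
    (hc : ∀ᶠ s in 𝓝 t, DifferentiableAt ℝ c s) (hc' : DifferentiableAt ℝ (deriv c) t)
    (hgeo : deriv (deriv c) t = - chris G (c t) (deriv c t) (deriv c t)) :
    DifferentiableAt ℝ (τ ∘ c) t ∧ DifferentiableAt ℝ (deriv (τ ∘ c)) t ∧
    deriv (deriv (τ ∘ c)) t = - chris G₂ (τ (c t)) (deriv (τ ∘ c) t) (deriv (τ ∘ c) t) := by
  have hc0 := hc.self_of_nhds
  have hτ0 : DifferentiableAt ℝ τ (c t) := hτ.differentiableAt (by simp)
  have hτ' : DifferentiableAt ℝ (fderiv ℝ τ) (c t) :=
    (hτ.fderiv_right (m := ∞) (by simp)).differentiableAt (by simp)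
  have hev : ∀ᶠ x in 𝓝 (c t), DifferentiableAt ℝ τ x := by
    have h1 : ContDiffAt ℝ 1 τ (c t) := hτ.of_le (by exact_mod_cast le_top)
    filter_upwards [h1.eventually (by simp)] with x hx
    exact hx.differentiableAt (by simp)
  have hd : ∀ᶠ s in 𝓝 t, deriv (τ ∘ c) s = fderiv ℝ τ (c s) (deriv c s) := by
    filter_upwards [hc0.continuousAt.eventually hev, hc] with s h1 h2
    exact (h1.hasFDerivAt.comp_hasDerivAt s h2.hasDerivAt).deriv
  have h1 : HasDerivAt (fun s => fderiv ℝ τ (c s)) (fderiv ℝ (fderiv ℝ τ) (c t) (deriv c t)) t :=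
    hτ'.hasFDerivAt.comp_hasDerivAt t hc0.hasDerivAt
  have h2 := h1.clm_apply hc'.hasDerivAt
  have h3 : HasDerivAt (deriv (τ ∘ c)) _ t := h2.congr_of_eventuallyEq hd
  refine ⟨hτ0.comp t hc0, h3.differentiableAt, ?_⟩
  rw [h3.deriv, hd.self_of_nhds, hgeo, map_neg, h.chris_trans h₂ hu hu₂ hτ hiso]
  abel

end
end IsMetricOn

end Vale.Agent.P255
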