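import Mathlib

/-!
# P255: Christoffel symbols, curvature and covariant derivative in coordinates
-/

open scoped Manifold ContDiff Topology
open Set

noncomputable section

namespace Vale.Agent.P255

variable {E : Type} [NormedAddCommGroup E] [NormedSpace ℝ E]

/-- Christoffel symbols of a coefficient function `G`: `chris G u v w` is the vector with
`G_u(chris, z) = 1/2 (D_v G (w,z) + D_w G (v,z) - D_z G (v,w))`. -/
def chris (G : E → E →L[ℝ] E →L[ℝ] ℝ) (u v w : E) : E :=
  (G u).inverse ((1 / 2 : ℝ) • (fderiv ℝ G u v w + fderiv ℝ G u w v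
    - ((fderiv ℝ G u).flip v).flip w))

/-- Curvature tensor `R(x,y)z` in coordinates. -/
def curv (G : E → E →L[ℝ] E →L[ℝ] ℝ) (u x y z : E) : E :=
  fderiv ℝ (fun p => chris G p y z) u x - fderiv ℝ (fun p => chris G p x z) u y
    + chris G u x (chris G u y z) - chris G u y (chris G u x z)

/-- Covariant derivative, along the curve `c`, of the field `Y`. -/
def covD (G : E → E →L[ℝ] E →L[ℝ] ℝ) (c Y : ℝ → E) (t : ℝ) : E :=
  deriv Y t + chris G (c t) (deriv c t) (Y t)


end Vale.Agent.P255
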