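import Vale.Agent.P255.Defs

/-!
# P255: metric coefficients in one chart: Christoffel symbols, metric compatibility,
skew-symmetry of the curvature, second derivative of `|J|²`
-/

open scoped Manifold ContDiff Topology
open Set

set_option maxSynthPendingDepth 3

noncomputable section

namespace Vale.Agent.P255

variable {E : Type} [NormedAddCommGroup E] [NormedSpace ℝ E]

/-- smooth metric coefficients on an open set -/
structure IsMetricOn (G : E → E →L[ℝ] E →L[ℝ] ℝ) (U : Set E) : Prop where
  isOpen : IsOpen U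
  smooth : ContDiffOn ℝ ∞ G U
  symm : ∀ u ∈ U, ∀ v w, G u v w = G u w v
  pos : ∀ u ∈ U, ∀ v, v ≠ 0 → 0 < G u v v

namespace IsMetricOn

variable {G : E → E →L[ℝ] E →L[ℝ] ℝ} {U : Set E}

theorem contDiffAt (h : IsMetricOn G U) {u : E} (hu : u ∈ U) : ContDiffAt ℝ ∞ G u :=
  h.smooth.contDiffAt (h.isOpen.mem_nhds hu)

theorem differentiableAt (h : IsMetricOn G U) {u : E} (hu : u ∈ U) : DifferentiableAt ℝ G u :=
  (h.contDiffAt hu).differentiableAt (by simp)

theorem contDiffAt_fderiv (h : IsMetricOn G U) {u : E} (hu : u ∈ U) :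
    ContDiffAt ℝ ∞ (fderiv ℝ G) u :=
  (h.contDiffAt hu).fderiv_right (m := ∞) (by simp)

theorem nonneg (h : IsMetricOn G U) {u : E} (hu : u ∈ U) (v : E) : 0 ≤ G u v v := by
  by_cases hv : v = 0
  · simp [hv]
  · exact (h.pos u hu v hv).le

theorem eq_zero (h : IsMetricOn G U) {u : E} (hu : u ∈ U) {v : E} (hv : G u v v = 0) : v = 0 := by
  by_contra h'
  exact (h.pos u hu v h').ne' hv

theorem fderiv_symm (h : IsMetricOn G U) {u : E} (hu : u ∈ U) (x v w : E) :
    fderiv ℝ G u x v w = fderiv ℝ G u x w v := by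
  have h1 : HasFDerivAt (fun p => G p v w) ((fderiv ℝ G u).flip v |>.flip w) u := by
    have := ((h.differentiableAt hu).hasFDerivAt.clm_apply (hasFDerivAt_const v u)).clm_apply
      (hasFDerivAt_const w u)
    refine this.congr_fderiv ?_
    ext z; simp
  have h2 : HasFDerivAt (fun p => G p w v) ((fderiv ℝ G u).flip w |>.flip v) u := by
    have := ((h.differentiableAt hu).hasFDerivAt.clm_apply (hasFDerivAt_const w u)).clm_apply
      (hasFDerivAt_const v u)
    refine this.congr_fderiv ?_
    ext z; simp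
  have h3 : HasFDerivAt (fun p => G p v w) ((fderiv ℝ G u).flip w |>.flip v) u := by
    refine h2.congr_of_eventuallyEq ?_
    filter_upwards [h.isOpen.mem_nhds hu] with p hp
    exact h.symm p hp v w
  have := congr_arg (fun L => L x) (h1.unique h3)
  simpa using this

variable [FiniteDimensional ℝ E]

theorem isInvertible (h : IsMetricOn G U) {u : E} (hu : u ∈ U) : (G u).IsInvertible := by
  have hinj : Function.Injective (G u) := by
    rw [injective_iff_map_eq_zero]
    intro v hv
    apply h.eq_zero hu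
    rw [hv]; simp
  have hdim : Module.finrank ℝ E = Module.finrank ℝ (E →L[ℝ] ℝ) := by
    have h1 : Module.finrank ℝ (E →ₗ[ℝ] ℝ) = Module.finrank ℝ E := Subspace.dual_finrank_eq
    rw [← h1]
    exact (LinearMap.toContinuousLinearMap (𝕜 := ℝ) (E := E) (F' := ℝ)).finrank_eq
  let e : E ≃ₗ[ℝ] (E →L[ℝ] ℝ) :=
    LinearMap.linearEquivOfInjective (G u : E →ₗ[ℝ] (E →L[ℝ] ℝ)) hinj hdim
  refine ⟨e.toContinuousLinearEquiv, ?_⟩
  ext v w
  rfl

theorem chris_spec (h : IsMetricOn G U) {u : E} (hu : u ∈ U) (v w z : E) :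
    G u (chris G u v w) z =
      (fderiv ℝ G u v w z + fderiv ℝ G u w v z - fderiv ℝ G u z v w) / 2 := by
  unfold chris
  rw [(h.isInvertible hu).self_apply_inverse]
  simp
  ring

omit [FiniteDimensional ℝ E] in
theorem ext_of (h : IsMetricOn G U) {u : E} (hu : u ∈ U) {v w : E}
    (hvw : ∀ z, G u v z = G u w z) : v = w := by
  have : G u (v - w) (v - w) = 0 := by
    rw [map_sub]; simp [hvw]
  exact sub_eq_zero.1 (h.eq_zero hu this)

theorem chris_symm (h : IsMetricOn G U) {u : E} (hu : u ∈ U) (v w : E) :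
    chris G u v w = chris G u w v := by
  apply h.ext_of hu
  intro z
  rw [h.chris_spec hu, h.chris_spec hu, h.fderiv_symm hu z v w]
  ring

theorem chris_compat (h : IsMetricOn G U) {u : E} (hu : u ∈ U) (x v w : E) :
    fderiv ℝ G u x v w = G u (chris G u x v) w + G u v (chris G u x w) := by
  rw [h.symm u hu v, h.chris_spec hu, h.chris_spec hu, h.fderiv_symm hu w x v,
    h.fderiv_symm hu v x w, h.fderiv_symm hu x w v]
  ring

end IsMetricOn


/-- Christoffel symbols as a bilinear map -/
def chrisB (G : E → E →L[ℝ] E →L[ℝ] ℝ) (u : E) : E →L[ℝ] E →L[ℝ] E :=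
  (ContinuousLinearMap.compL ℝ E (E →L[ℝ] ℝ) E (G u).inverse) ∘L
    ((1 / 2 : ℝ) • (fderiv ℝ G u + (fderiv ℝ G u).flip
      - (ContinuousLinearMap.flipₗᵢ ℝ E E ℝ).toContinuousLinearEquiv.toContinuousLinearMap ∘L
        (fderiv ℝ G u).flip))

theorem chrisB_apply (G : E → E →L[ℝ] E →L[ℝ] ℝ) (u v w : E) :
    chrisB G u v w = chris G u v w := by
  simp only [chrisB, chris, ContinuousLinearMap.coe_comp, Function.comp_apply,
    ContinuousLinearMap.compL_apply]
  congr 1

namespace IsMetricOn

variable [FiniteDimensional ℝ E] {G : E → E →L[ℝ] E →L[ℝ] ℝ} {U : Set E}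

theorem contDiffAt_chrisB (h : IsMetricOn G U) {u : E} (hu : u ∈ U) :
    ContDiffAt ℝ ∞ (chrisB G) u := by
  unfold chrisB
  have hi : ContDiffAt ℝ ∞ (fun u => (G u).inverse) u :=
    ((h.isInvertible hu).contDiffAt_map_inverse).comp u (h.contDiffAt hu)
  have hd := h.contDiffAt_fderiv hu
  have hf : ContDiffAt ℝ ∞ (fun u => (fderiv ℝ G u).flip) u :=
    ((ContinuousLinearMap.flipₗᵢ ℝ E E (E →L[ℝ] ℝ)).toContinuousLinearEquiv.contDiff.contDiffAt).comp
      u hd
  refine ContDiffAt.clm_comp ?_ ?_
  · exact (ContinuousLinearMap.compL ℝ E (E →L[ℝ] ℝ) E).contDiff.contDiffAt.comp u hi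
  · exact ((hd.add hf).sub (contDiffAt_const.clm_comp hf)).const_smul (1 / 2 : ℝ)

theorem contDiffAt_chris (h : IsMetricOn G U) {u : E} (hu : u ∈ U) (v w : E) :
    ContDiffAt ℝ ∞ (fun p => chris G p v w) u := by
  simp_rw [← chrisB_apply]
  exact ((h.contDiffAt_chrisB hu).clm_apply contDiffAt_const).clm_apply contDiffAt_const

theorem differentiableAt_chrisB (h : IsMetricOn G U) {u : E} (hu : u ∈ U) :
    DifferentiableAt ℝ (chrisB G) u :=
  (h.contDiffAt_chrisB hu).differentiableAt (by simp)

theorem fderiv_chris (h : IsMetricOn G U) {u : E} (hu : u ∈ U) (v w x : E) :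
    fderiv ℝ (fun p => chris G p v w) u x = fderiv ℝ (chrisB G) u x v w := by
  simp_rw [← chrisB_apply]
  have h1 := (((h.differentiableAt_chrisB hu).hasFDerivAt.clm_apply
    (hasFDerivAt_const v u)).clm_apply (hasFDerivAt_const w u)).fderiv
  rw [h1]
  simp

theorem curv_eq (h : IsMetricOn G U) {u : E} (hu : u ∈ U) (x y z : E) :
    curv G u x y z = fderiv ℝ (chrisB G) u x y z - fderiv ℝ (chrisB G) u y x z
      + chrisB G u x (chrisB G u y z) - chrisB G u y (chrisB G u x z) := by
  unfold curv
  rw [h.fderiv_chris hu, h.fderiv_chris hu]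
  simp only [chrisB_apply]

/-- the curvature is skew-symmetric in its last two arguments -/
theorem curv_skew (h : IsMetricOn G U) {u : E} (hu : u ∈ U) (x y z : E) :
    G u (curv G u x y z) z = 0 := by
  -- first derivative of `p ↦ G p z z`
  have h1 : ∀ p ∈ U, ∀ a, fderiv ℝ (fun q => G q z z) p a = 2 * G p (chrisB G p a z) z := by
    intro p hp a
    have := (((h.differentiableAt hp).hasFDerivAt.clm_apply
      (hasFDerivAt_const z p)).clm_apply (hasFDerivAt_const z p)).fderiv
    rw [this]
    simp only [add_apply, ContinuousLinearMap.flip_apply]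
    simp only [ContinuousLinearMap.comp_apply, zero_apply, map_zero,
      zero_add, add_apply, ContinuousLinearMap.flip_apply]
    rw [h.chris_compat hp, h.symm p hp z, ← chrisB_apply]
    ring
  have hsm : ContDiffAt ℝ 2 (fun q => G q z z) u :=
    (((h.contDiffAt hu).clm_apply contDiffAt_const).clm_apply contDiffAt_const).of_le
      (by norm_cast)
  have hsym : ∀ a b, fderiv ℝ (fun p => fderiv ℝ (fun q => G q z z) p a) u b =
      fderiv ℝ (fun p => fderiv ℝ (fun q => G q z z) p b) u a := by
    intro a b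
    have hs := hsm.isSymmSndFDerivAt (by simp)
    have hd : DifferentiableAt ℝ (fderiv ℝ (fun q => G q z z)) u :=
      (hsm.fderiv_right (m := 1) (by norm_num)).differentiableAt (by simp)
    have e1 : ∀ c d, fderiv ℝ (fun p => fderiv ℝ (fun q => G q z z) p c) u d =
        fderiv ℝ (fderiv ℝ (fun q => G q z z)) u d c := by
      intro c d
      rw [(hd.hasFDerivAt.clm_apply (hasFDerivAt_const c u)).fderiv]
      simp
    rw [e1, e1]
    exact hs b a
  have hval : ∀ a b, fderiv ℝ (fun p => fderiv ℝ (fun q => G q z z) p a) u b =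
      2 * (G u (chrisB G u b (chrisB G u a z)) z + G u (chrisB G u a z) (chrisB G u b z)
        + G u (fderiv ℝ (chrisB G) u b a z) z) := by
    intro a b
    have e1 : (fun p => fderiv ℝ (fun q => G q z z) p a) =ᶠ[𝓝 u]
        fun p => 2 * G p (chrisB G p a z) z := by
      filter_upwards [h.isOpen.mem_nhds hu] with p hp
      exact h1 p hp a
    rw [e1.fderiv_eq]
    have e2 := (((h.differentiableAt_chrisB hu).hasFDerivAt.clm_apply
      (hasFDerivAt_const a u)).clm_apply (hasFDerivAt_const z u))
    have e3 := (((h.differentiableAt hu).hasFDerivAt.clm_apply e2).clm_apply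
      (hasFDerivAt_const z u)).const_mul 2
    rw [e3.fderiv]
    simp only [add_apply, ContinuousLinearMap.flip_apply,
      ContinuousLinearMap.comp_apply, zero_apply, map_zero,
      zero_add, smul_apply, smul_eq_mul]
    rw [h.chris_compat hu]
    simp only [chrisB_apply]
    ring
  have := hsym x y
  rw [hval, hval] at this
  rw [h.curv_eq hu]
  simp only [map_sub, map_add, sub_apply, add_apply]
  rw [h.symm u hu (chrisB G u x z)] at this
  linarith

/-- metric compatibility along a curve -/
theorem hasDerivAt_inner (h : IsMetricOn G U) {c X Y : ℝ → E} {t : ℝ} (ht : c t ∈ U)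
    (hc : DifferentiableAt ℝ c t) (hX : DifferentiableAt ℝ X t) (hY : DifferentiableAt ℝ Y t) :
    HasDerivAt (fun s => G (c s) (X s) (Y s))
      (G (c t) (covD G c X t) (Y t) + G (c t) (X t) (covD G c Y t)) t := by
  have h1 : HasDerivAt (fun s => G (c s)) (fderiv ℝ G (c t) (deriv c t)) t :=
    (h.differentiableAt ht).hasFDerivAt.comp_hasDerivAt t hc.hasDerivAt
  have h2 := (h1.clm_apply hX.hasDerivAt).clm_apply hY.hasDerivAt
  refine h2.congr_deriv ?_
  simp only [covD, add_apply, map_add]
  rw [h.chris_compat ht]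
  ring

end IsMetricOn

end Vale.Agent.P255
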