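import Vale.Agent.P255.CoordDefs

/-!
# P255: basic definitions (metric, Christoffel symbols, curvature, geodesics, Jacobi fields)
All notions are written in the charts `chartAt E a` of a manifold modelled on a
normed space `E`.
-/

open scoped Manifold ContDiff Topology
open Set

noncomputable section

namespace Vale.Agent.P255

section Mfd

variable (E : Type) [NormedAddCommGroup E] [NormedSpace ℝ E]
variable (M : Type) [TopologicalSpace M] [ChartedSpace E M]

variable {M} in
/-- Coordinate change from the chart at `a` to the chart at `b`. -/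
def trans (a b : M) (u : E) : E := chartAt E b ((chartAt E a).symm u)

/-- A Riemannian metric, given by its coefficients in all charts `chartAt E a`. -/
structure Metric where
  coef : M → E → E →L[ℝ] E →L[ℝ] ℝ
  smooth : ∀ a, ContDiffOn ℝ ∞ (coef a) (chartAt E a).target
  symm : ∀ a, ∀ u ∈ (chartAt E a).target, ∀ v w, coef a u v w = coef a u w v
  pos : ∀ a, ∀ u ∈ (chartAt E a).target, ∀ v, v ≠ 0 → 0 < coef a u v v
  compat : ∀ a b, ∀ u ∈ (chartAt E a).target, (chartAt E a).symm u ∈ (chartAt E b).source →
    ∀ v w, coef b (trans E a b u) (fderiv ℝ (trans E a b) u v) (fderiv ℝ (trans E a b) u w)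
      = coef a u v w

variable {E M}

/-- The curve `γ` read in the chart at `a`. -/
def cc (γ : ℝ → M) (a : M) (t : ℝ) : E := chartAt E a (γ t)

/-- `γ` is a geodesic on the set of times `s` (usually open). -/
structure IsGeodesicOn (g : Metric E M) (γ : ℝ → M) (s : Set ℝ) : Prop where
  cont : ContinuousOn γ s
  eqn : ∀ a, ∀ t ∈ s, γ t ∈ (chartAt E a).source →
    DifferentiableAt ℝ (cc (E := E) γ a) t ∧
    DifferentiableAt ℝ (deriv (cc (E := E) γ a)) t ∧
    deriv (deriv (cc (E := E) γ a)) t =
      - chris (g.coef a) (cc γ a t) (deriv (cc γ a) t) (deriv (cc γ a) t)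

/-- Geodesics, defined for all times. -/
def IsGeodesic (g : Metric E M) (γ : ℝ → M) : Prop := IsGeodesicOn g γ univ

/-- A vector field along `γ`, given by its components `J a t` in the charts containing
`γ t`, satisfying the tensor transformation rule, and the Jacobi equation
`D_t D_t J + R(J, γ') γ' = 0`. -/
structure IsJacobi (g : Metric E M) (γ : ℝ → M) (J : M → ℝ → E) : Prop where
  compat : ∀ a b t, γ t ∈ (chartAt E a).source → γ t ∈ (chartAt E b).source →
    J b t = fderiv ℝ (trans E a b) (cc γ a t) (J a t)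
  eqn : ∀ a t, γ t ∈ (chartAt E a).source →
    DifferentiableAt ℝ (J a) t ∧
    DifferentiableAt ℝ (covD (g.coef a) (cc γ a) (J a)) t ∧
    covD (g.coef a) (cc γ a) (covD (g.coef a) (cc γ a) (J a)) t
      + curv (g.coef a) (cc γ a t) (J a t) (deriv (cc γ a) t) (deriv (cc γ a) t) = 0

/-- No conjugate points: a Jacobi field along a geodesic that vanishes at two distinct
times vanishes identically. -/
def NoConj (g : Metric E M) : Prop :=
  ∀ (γ : ℝ → M) (J : M → ℝ → E), IsGeodesic g γ → IsJacobi g γ J →
    ∀ t₁ t₂ : ℝ, t₁ ≠ t₂ → J (γ t₁) t₁ = 0 → J (γ t₂) t₂ = 0 →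
    ∀ a t, γ t ∈ (chartAt E a).source → J a t = 0

/-- Nonpositive sectional curvature. -/
def Npc (g : Metric E M) : Prop :=
  ∀ a, ∀ u ∈ (chartAt E a).target, ∀ v w, g.coef a u (curv (g.coef a) u v w w) v ≤ 0

/-- The inner product on `E` given by the metric at `m` (read in the chart at `m`). -/
def Metric.ip (g : Metric E M) (m : M) : E →L[ℝ] E →L[ℝ] ℝ :=
  g.coef m (chartAt E m m)

/-- The corresponding norm. -/
def Metric.nm (g : Metric E M) (m : M) (v : E) : ℝ := Real.sqrt (g.ip m v v)

end Mfd

end Vale.Agent.P255
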