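import Mathlib.Algebra.Order.Archimedean.Real.Hom
import Mathlib.Algebra.Order.Ring.Star
import Mathlib.Algebra.Order.Star.Real
import Mathlib.Algebra.Ring.IsFormallyReal
import Mathlib.Analysis.CStarAlgebra.Classes
import Mathlib.Analysis.Calculus.BumpFunction.FiniteDimension
import Mathlib.Analysis.Calculus.FDeriv.Symmetric
import Mathlib.Analysis.Calculus.InverseFunctionTheorem.ContDiff
import Mathlib.Analysis.Convex.Contractible
import Mathlib.Analysis.ODE.ExistUnique
import Mathlib.Analysis.Real.Pi.Bounds
import Mathlib.CategoryTheory.Core
import Mathlib.CategoryTheory.EffectiveEpi.Comp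
import Mathlib.CategoryTheory.ExtremalEpi
import Mathlib.CategoryTheory.Groupoid.VertexGroup
import Mathlib.Combinatorics.Quiver.ReflQuiver
import Mathlib.Dynamics.Flow
import Mathlib.Geometry.Manifold.VectorBundle.Riemannian
import Mathlib.Order.CompletePartialOrder
import Mathlib.RingTheory.Etale.Weakly
import Mathlib.RingTheory.Flat.TorsionFree
import Mathlib.RingTheory.RegularLocalRing.Defs
import Mathlib.RingTheory.SimpleRing.Principal
import Mathlib.RingTheory.TotallySplit
import Mathlib.Tactic
import Mathlib.Topology.Compactness.CompactlyGeneratedSpace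
import Mathlib.Topology.Homotopy.Lifting

/-! The part of Mathlib that the development of this folder uses. -/
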